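import Vale.Agent.P011.E6X.Defs
import Vale.Agent.P011.E6O.DD
import Vale.Agent.P011.E6O.Defs
import Vale.Agent.P011.D4.R1

/-!
The cyclic algebra with unitary involution attached to the data of the outer group.
-/

open NumberField Module

namespace Vale.Agent.P011.E6X

open Vale.Agent.P011.E6O

open Vale.Agent.P011.MPQ Vale.Agent.P011.D4 Vale.Agent.P011.D4.Oct Vale.Agent.P011.E6
open Vale.Agent.P011.E6I (MQ toMQ u0)
open scoped ComplexConjugate

variable {k E : Type} [Field k] [Field E] [Algebra k E]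

/-- The fixed field of `ρ`. -/
def fixR (ρ : E ≃ₐ[k] E) : Subfield E := FixedPoints.subfield (Subgroup.zpowers ρ) E

theorem mem_fixR (ρ : E ≃ₐ[k] E) (x : E) : x ∈ fixR ρ ↔ ρ x = x := by
  constructor
  · intro h
    exact h ⟨ρ, Subgroup.mem_zpowers ρ⟩
  · intro h
    rintro ⟨τ, hτ⟩
    obtain ⟨n, rfl⟩ := Subgroup.mem_zpowers_iff.mp hτ
    have h1 : ∀ m : ℕ, (ρ ^ m) x = x := by
      intro m
      induction m with
      | zero => rfl
      | succ m ih => rw [pow_succ, AlgEquiv.mul_apply, h, ih]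
    change (ρ ^ n) x = x
    obtain ⟨m, rfl | rfl⟩ := n.eq_nat_or_neg
    · rw [zpow_natCast]
      exact h1 m
    · rw [zpow_neg, zpow_natCast]
      apply (ρ ^ m).injective
      rw [← AlgEquiv.mul_apply, mul_inv_cancel, AlgEquiv.one_apply, h1]

/-- The fixed field of `ρ`, as a type. -/
def KK (ρ : E ≃ₐ[k] E) : Type := fixR ρ

noncomputable instance (ρ : E ≃ₐ[k] E) : Field (KK ρ) := inferInstanceAs (Field (fixR ρ))
noncomputable instance (ρ : E ≃ₐ[k] E) : Algebra (KK ρ) E := inferInstanceAs (Algebra (fixR ρ) E)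

theorem KK_fix (ρ : E ≃ₐ[k] E) (t : KK ρ) : ρ (algebraMap (KK ρ) E t) = algebraMap (KK ρ) E t :=
  (mem_fixR ρ _).mp t.2

/-- The element of the fixed field. -/
def mkK {ρ : E ≃ₐ[k] E} {x : E} (hx : ρ x = x) : KK ρ := ⟨x, (mem_fixR ρ x).mpr hx⟩

@[simp] theorem algebraMap_mkK {ρ : E ≃ₐ[k] E} {x : E} (hx : ρ x = x) :
    algebraMap (KK ρ) E (mkK hx) = x := rfl

theorem KK_ext {ρ : E ≃ₐ[k] E} {x y : KK ρ} (h : algebraMap (KK ρ) E x = algebraMap (KK ρ) E y) :
    x = y := (algebraMap (KK ρ) E).injective h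

instance [NumberField E] (ρ : E ≃ₐ[k] E) : NumberField (KK ρ) where
  to_charZero := inferInstanceAs (CharZero (fixR ρ))
  to_finiteDimensional := by
    have h : FiniteDimensional ℚ (fixR ρ) :=
      FiniteDimensional.of_injective (Algebra.linearMap (fixR ρ) E |>.restrictScalars ℚ)
        (algebraMap (fixR ρ) E).injective
    exact h

/-- The involution of the fixed field. -/
@[reducible] noncomputable def starK {ρ σ : E ≃ₐ[k] E} (hσ : ∀ x, σ (σ x) = x)
    (hc : ∀ x, ρ (σ x) = σ (ρ x)) : StarRing (KK ρ) where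
  star x := mkK (ρ := ρ) (x := σ (algebraMap (KK ρ) E x)) (by rw [hc, KK_fix])
  star_involutive x := KK_ext (by
    change σ (σ (algebraMap (KK ρ) E x)) = _
    rw [hσ])
  star_mul x y := KK_ext (by
    change σ (algebraMap (KK ρ) E (x * y)) =
      σ (algebraMap (KK ρ) E y) * σ (algebraMap (KK ρ) E x)
    rw [map_mul, map_mul, mul_comm])
  star_add x y := KK_ext (by
    change σ (algebraMap (KK ρ) E (x + y)) =
      σ (algebraMap (KK ρ) E x) + σ (algebraMap (KK ρ) E y)
    rw [map_add, map_add])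

theorem finrank_KK [NumberField E] {ρ : E ≃ₐ[k] E} (hρ : ρ ≠ 1) (ρ3 : ∀ x, ρ (ρ (ρ x)) = x) :
    finrank (KK ρ) E = 3 := by
  have h3 : ρ ^ 3 = 1 := by
    ext x
    exact ρ3 x
  have ho : orderOf ρ = 3 := orderOf_eq_prime h3 hρ
  have hfin : Finite (Subgroup.zpowers ρ) := by
    apply Nat.finite_of_card_ne_zero
    rw [Nat.card_zpowers, ho]
    norm_num
  have := Fintype.ofFinite (Subgroup.zpowers ρ)
  have h := FixedPoints.finrank_eq_card (Subgroup.zpowers ρ) E
  rw [← Nat.card_eq_fintype_card, Nat.card_zpowers, ho] at h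
  exact h

section hyp

variable {ρ σ : E ≃ₐ[k] E} {lam : Eˣ} {g : Fin 3 → Eˣ} {al s : E} {a b c : kˣ}
  (H : Hyp ρ σ lam g al s a b c)

include H

theorem Hyp.al_ne : al ≠ 0 := by
  intro h
  have h1 := H.al2
  rw [h, zero_pow two_ne_zero] at h1
  exact a.ne_zero ((map_eq_zero _).mp h1.symm)

variable [NumberField E]

/-- The cyclic algebra with unitary involution. -/
noncomputable def Hyp.dat :
    letI := starK (ρ := ρ) H.σ2 H.comm
    Dat (KK ρ) E :=
  letI := starK (ρ := ρ) H.σ2 H.comm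
  { ρ := { (ρ : E ≃+* E) with commutes' := KK_fix ρ }
    s := (σ : E ≃+* E)
    lam := Units.mk0 (mkK (ρ := ρ) H.ρlam) fun h => lam.ne_zero (congrArg (algebraMap (KK ρ) E) h)
    G := g
    c := s
    h3 := finrank_KK H.hρ H.ρ3
    ρ1 := by
      by_contra h
      push Not at h
      exact H.hρ (AlgEquiv.ext h)
    ρ3 := H.ρ3
    fix := fun x hx => ⟨mkK (ρ := ρ) hx, rfl⟩
    hN := H.hlam
    ss := H.σ2
    sρ := fun x => (H.comm x).symm
    sK := fun x => rfl
    sG := H.σg
    G1 := H.g1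
    G2 := H.g2
    G0 := by
      change (g 0 : E) = lam * σ lam * (s * ρ (g 2))
      rw [H.g0]
      ring }

/-- The data of the group define a cyclic algebra of degree three over a number field, with a
unitary involution. -/
theorem Hyp.exists_dat [NumberField k] :
    ∃ (K : Type) (_ : Field K) (_ : NumberField K) (_ : StarRing K) (_ : Algebra K E)
      (S : Dat K E), (∀ x, S.ρ x = ρ x) ∧ (∀ x, S.s x = σ x) ∧
      algebraMap K E (S.lam : K) = lam ∧ S.G = g ∧ S.c = s ∧
      (∀ x : E, ρ x = x → ∃ t : K, algebraMap K E t = x) ∧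
      (∀ t : K, ρ (algebraMap K E t) = algebraMap K E t) ∧
      (∀ t : K, algebraMap K E (star t) = σ (algebraMap K E t)) ∧
      (∃ t : K, star t ≠ t) := by
  refine ⟨KK ρ, inferInstance, inferInstance, starK (ρ := ρ) H.σ2 H.comm, inferInstance, H.dat,
    fun _ => rfl, fun _ => rfl, rfl, rfl, rfl, fun x hx => ⟨mkK (ρ := ρ) hx, rfl⟩, KK_fix ρ,
    fun _ => rfl, ?_⟩
  refine ⟨mkK (ρ := ρ) H.ρal, fun h => ?_⟩
  have h1 : σ al = al := congrArg (algebraMap (KK ρ) E) h
  rw [H.σal] at h1
  have h2 : (2 : E) * al = 0 := by linear_combination -h1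
  exact H.al_ne ((mul_eq_zero.mp h2).resolve_left two_ne_zero)

omit [NumberField E] in
/-- The elements fixed by `ρ` and `σ` are in `k`. -/
theorem Hyp.exists_k {x : E} (hx : ρ x = x) (hx' : σ x = x) : ∃ t : k, algebraMap k E t = x := by
  have hfin : FiniteDimensional k E := Module.finite_of_finrank_pos (by rw [H.h6]; norm_num)
  obtain ⟨G, hG⟩ : ∃ G : Subgroup (E ≃ₐ[k] E), G = Subgroup.closure {ρ, σ} := ⟨_, rfl⟩
  have hρG : ρ ∈ G := by rw [hG]; exact Subgroup.subset_closure (by simp)
  have hσG : σ ∈ G := by rw [hG]; exact Subgroup.subset_closure (by simp)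
  have hoρ : orderOf ρ = 3 := orderOf_eq_prime (by ext x; exact H.ρ3 x) H.hρ
  have hoσ : orderOf σ = 2 := orderOf_eq_prime (by ext x; exact H.σ2 x) H.hσ
  have h1 : 3 ∣ Nat.card G := by
    rw [← hoρ]
    exact Subgroup.orderOf_dvd_natCard G hρG
  have h2 : 2 ∣ Nat.card G := by
    rw [← hoσ]
    exact Subgroup.orderOf_dvd_natCard G hσG
  have h3 : 2 * 3 ∣ Nat.card G := Nat.Coprime.mul_dvd_of_dvd_of_dvd (by norm_num) h2 h1
  have h4 := Module.finrank_mul_finrank k (IntermediateField.fixedField G) E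
  rw [IntermediateField.finrank_fixedField_eq_card, H.h6] at h4
  obtain ⟨m, hm⟩ := h3
  have h5 : Module.finrank k (IntermediateField.fixedField G) = 1 := by
    rw [hm] at h4
    have h6 : Module.finrank k (IntermediateField.fixedField G) * m = 1 := by
      have : 6 * (Module.finrank k (IntermediateField.fixedField G) * m) = 6 * 1 := by
        rw [mul_one]
        conv_rhs => rw [← h4]
        ring
      omega
    exact Nat.eq_one_of_mul_eq_one_right h6
  have h6 : IntermediateField.fixedField G = ⊥ := IntermediateField.finrank_eq_one_iff.mp h5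
  have h7 : x ∈ IntermediateField.fixedField G := by
    rw [IntermediateField.mem_fixedField_iff]
    intro f hf
    rw [hG] at hf
    induction hf using Subgroup.closure_induction with
    | mem y hy =>
      rcases hy with rfl | hy
      · exact hx
      · rw [Set.mem_singleton_iff.mp hy]
        exact hx'
    | one => rfl
    | mul y z _ _ h1 h2 => rw [AlgEquiv.mul_apply, h2, h1]
    | inv y _ h1 =>
      apply y.injective
      rw [← AlgEquiv.mul_apply, mul_inv_cancel, AlgEquiv.one_apply, h1]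
  rw [h6, IntermediateField.mem_bot] at h7
  exact h7

omit [NumberField E] in
/-- The elements fixed by `ρ` are the elements of `k(al)`. -/
theorem Hyp.exists_kal [CharZero k] {x : E} (hx : ρ x = x) :
    ∃ x₀ x₁ : k, x = algebraMap k E x₀ + al * algebraMap k E x₁ := by
  have hE : CharZero E := charZero_of_injective_algebraMap (algebraMap k E).injective
  obtain ⟨x₀, h0⟩ := H.exists_k (x := (x + σ x) / 2)
    (by rw [map_div₀, map_add, H.comm, hx, map_ofNat])
    (by rw [map_div₀, map_add, H.σ2, map_ofNat, add_comm])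
  obtain ⟨x₁, h1⟩ := H.exists_k (x := (x - σ x) / (2 * al))
    (by rw [map_div₀, map_sub, map_mul, H.comm, hx, H.ρal, map_ofNat])
    (by rw [map_div₀, map_sub, map_mul, H.σ2, map_ofNat, H.σal, mul_neg, div_neg, ← neg_div,
          neg_sub])
  refine ⟨x₀, x₁, ?_⟩
  have h2 := H.al_ne
  rw [h0, h1]
  field_simp
  ring

/-- `b` is not a norm from `k(al)`. -/
theorem Hyp.not_norm [CharZero k] {x : E} (hx : ρ x = x) :
    x * σ x ≠ algebraMap k E b := by
  intro h
  obtain ⟨x₀, x₁, rfl⟩ := H.exists_kal hx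
  rw [map_add, map_mul, H.σal, AlgEquiv.commutes, AlgEquiv.commutes] at h
  have h1 : algebraMap k E (x₀ ^ 2 - a * x₁ ^ 2 - b * 1 ^ 2) = 0 := by
    rw [map_sub, map_sub, map_mul, map_mul, map_pow, map_pow, ← H.al2, ← h]
    simp
    ring
  have h2 := (map_eq_zero _).mp h1
  have h3 := H.hdiv.aniso ⟨x₀, x₁, 1, 0⟩ (by
    simp only [nrd]
    linear_combination h2)
  exact one_ne_zero (congrArg QuaternionAlgebra.imJ h3)

end hyp

end Vale.Agent.P011.E6X
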