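import Vale.Agent.P011.E6X.Defs
import Vale.Agent.P011.E6O.H24.Bas
import Vale.Agent.P011.E6O.Defs
import Vale.Agent.P011.E6O.H68.Split
import Vale.Agent.P011.E6I.Bas0

/-!
Block E6O, row BAS: the action of the similitudes of `D ⊗ Q`.
-/

open NumberField Matrix

namespace Vale.Agent.P011.E6X

open Vale.Agent.P011.E6O

open Vale.Agent.P011.MPQ Vale.Agent.P011.D4 Vale.Agent.P011.D4.Oct Vale.Agent.P011.E6
open Vale.Agent.P011.E6.Alb
open Vale.Agent.P011.E6I (MQ toMQ toMQ_apply toMQ_mul toMQ_one)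


section B

variable {k E : Type} [Field k] [NumberField k] [Field E] [NumberField E] [Algebra k E]
  {ρ σ : E ≃ₐ[k] E} {lam : Eˣ} {g : Fin 3 → Eˣ} {al s : E} {a b c : kˣ}

omit [NumberField k] [NumberField E] in
theorem Hyp.alal (H : Hyp ρ σ lam g al s a b c) : al * al = (up E a : E) := by
  rw [← pow_two]
  exact H.al2

omit [NumberField k] in
theorem cub_act (H : Hyp ρ σ lam g al s a b c) (m : (MQ E a b)ˣ) {κ : Qt (up E a) (up E b)}
    (hκ : nrd κ = nu (m : MQ E a b)) (x : AlbL E a b c) :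
    Alb.cub (Alb.act m κ x) = nu (m : MQ E a b) * Alb.cub x :=
  H68.cub_actS (H68.spq two_ne_zero H.alal) two_ne_zero m hκ x

omit [NumberField k] in
theorem nu_mul (H : Hyp ρ σ lam g al s a b c) (A B : MQ E a b) : nu (A * B) = nu A * nu B :=
  H68.nu_mulS (H68.spq two_ne_zero H.alal) two_ne_zero A B

omit [NumberField k] in
theorem ph_act_qup (_ : Hyp ρ σ lam g al s a b c) {m : (MQ E a b)ˣ}
    (hm : InD ρ lam (m : MQ E a b)) (κ : Qt a b) (x : AlbL E a b c) :
    ph ρ lam (Alb.act m (qup E κ) x) = Alb.act m (qup E κ) (ph ρ lam x) :=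
  ph_act hm (qmap_qup ρ κ) x

omit [NumberField k] in
/-- The similitudes of `D ⊗ Q` give elements of the group. -/
theorem exists_sim (H : Hyp ρ σ lam g al s a b c) {m : (MQ E a b)ˣ}
    (hm : InD ρ lam (m : MQ E a b)) {μ : k} (hμ : μ ≠ 0)
    (hu : IsUn σ g (algebraMap k E μ) (m : MQ E a b))
    (hn : nu (m : MQ E a b) = algebraMap k E μ ^ 3) {κ : Qt a b} (hκ : nrd κ = μ ^ 3) :
    ∃ φ ∈ GO ρ σ lam g a b c, ∀ x, φ x = (algebraMap k E μ)⁻¹ • Alb.act m (qup E κ) x := by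
  have hμE : algebraMap k E μ ≠ 0 := (map_ne_zero _).mpr hμ
  have hκ0 : nrd κ ≠ 0 := by rw [hκ]; exact pow_ne_zero 3 hμ
  have hκE : nrd (qup E κ) = algebraMap k E μ ^ 3 := by rw [nrd_qup, hκ, map_pow]
  obtain ⟨u, hu'⟩ := H64.isUnit_of_nrd (x := qup E κ) (by rw [hκE]; exact pow_ne_zero 3 hμE)
  refine ⟨(LinearEquiv.smulOfNeZero E _ (algebraMap k E μ)⁻¹ (inv_ne_zero hμE) :
    AlbL E a b c ≃ₗ[E] AlbL E a b c) * H64.actL two_ne_zero m u, ⟨fun x => ?_, fun x => ?_,
    fun x y => ?_⟩, fun x => ?_⟩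
  · rw [LinearEquiv.mul_apply, LinearEquiv.smulOfNeZero_apply, H64.actL_apply, hu', Alb.cub_smul,
      cub_act H m (by rw [hκE, hn]), hn, ← mul_assoc, ← mul_pow, inv_mul_cancel₀ hμE, one_pow,
      one_mul]
  · rw [LinearEquiv.mul_apply, LinearEquiv.mul_apply, LinearEquiv.smulOfNeZero_apply,
      LinearEquiv.smulOfNeZero_apply, H64.actL_apply, H64.actL_apply, hu', ph_smul,
      ph_act_qup H hm, map_inv₀, AlgEquiv.commutes]
  · rw [LinearEquiv.mul_apply, LinearEquiv.mul_apply, LinearEquiv.smulOfNeZero_apply,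
      LinearEquiv.smulOfNeZero_apply, H64.actL_apply, H64.actL_apply, hu']
    have h1 := her_act (σ := σ) (g := g) hμE hu (κ := qup E κ) (by
      rw [qmap_qup, H64.star_mul_qt, hκE]) x y
    have h2 : ∀ (t : E) (x y : AlbL E a b c), her σ g (t • x) (t • y) = t * σ t * her σ g x y := by
      intro t x y
      have e : Alb.wt g (t • x) = t • Alb.wt g x := by
        apply Alb.ext <;> simp [Alb.wt, mul_left_comm, smul_comm t]
      rw [her, her, e, Alb.tf_smul_left, amap_smul, Alb.tf_smul_right, mul_assoc]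
    rw [h2, h1, map_inv₀, AlgEquiv.commutes]
    field_simp
  · rw [LinearEquiv.mul_apply, LinearEquiv.smulOfNeZero_apply, H64.actL_apply, hu']

omit [NumberField k] in
theorem exists_act (H : Hyp ρ σ lam g al s a b c) {m : (MQ E a b)ˣ}
    (hm : InD ρ lam (m : MQ E a b)) (hu : IsUn σ g 1 (m : MQ E a b))
    (hn : nu (m : MQ E a b) = 1) :
    ∃ φ ∈ GO ρ σ lam g a b c, ∀ x, φ x = Alb.act m 1 x := by
  obtain ⟨φ, hφ, h⟩ := exists_sim H hm (μ := 1) one_ne_zero (by rwa [map_one])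
    (by rw [hn, map_one, one_pow]) (κ := 1) (by rw [nrd_one, one_pow])
  refine ⟨φ, hφ, fun x => ?_⟩
  rw [h, map_one, inv_one, one_smul, qup_one]

end B

end Vale.Agent.P011.E6X
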