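import Vale.Agent.P011.E6O.Trans

/-!
The special unitary group of the form `⟨1, -b⟩` over a cyclic algebra of degree three moves every
line with standard signatures to a line defined over the centre.
-/

open Matrix Module NumberField
open scoped ComplexOrder

set_option linter.unusedSectionVars false

namespace Vale.Agent.P011.E6X

open Vale.Agent.P011S Vale.Agent.P011.Even
open Vale.Agent.P011.E6O (Dat IsSU2 rv aniso_b exists_kappa exists_move)

variable {K E : Type} [Field K] [StarRing K] [Field E] [Algebra K E] (S : Dat K E)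

/-- Every line with standard signatures is moved to a line defined over the centre. -/
theorem exists_TX [NumberField K] (hK : ∃ t : K, star t ≠ t) {b : K} (hb : star b = b)
    (hbn : ∀ x : K, x * star x ≠ b) (z₁ z₂ : S.D) (hz : z₁ ≠ 0 ∨ z₂ ≠ 0)
    (hsig : ∀ w : E →+* ℂ, (∀ x, w (S.s x) = star (w x)) →
      ∃ (ε : ℝ) (Q : Matrix (Fin 3) (Fin 3) ℂ), ε ≠ 0 ∧
        ((w (algebraMap K E b)).re < 0 → 0 < ε) ∧ IsUnit Q ∧
        Q * ((ε : ℂ) • Matrix.diagonal (fun i => (w (S.G i))⁻¹)) * Qᴴ =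
          (S.f (z₁ * star z₁ - b • (z₂ * star z₂))).map w *
            Matrix.diagonal (fun i => (w (S.G i))⁻¹)) :
    ∃ (m : Matrix (Fin 2) (Fin 2) S.D) (δ : S.D) (κ₁ κ₂ : K), IsSU2 S.f b m ∧ δ ≠ 0 ∧
      κ₁ * star κ₁ - b * (κ₂ * star κ₂) ≠ 0 ∧ rv (z₁, z₂) m = (κ₁ • δ, κ₂ • δ) := by
  have hb0 : b ≠ 0 := fun h0 => hbn 0 (by rw [zero_mul, h0])
  obtain ⟨g, hg⟩ : ∃ g : S.D, g = z₁ * star z₁ - b • (z₂ * star z₂) := ⟨_, rfl⟩
  have hg0 : g ≠ 0 := by
    intro h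
    have h1 := aniso_b S hb hbn z₁ z₂ (by rw [← hg, h])
    rcases hz with hz | hz
    · exact hz h1.1
    · exact hz h1.2
  have hgs : star g = g := by
    rw [hg, star_sub, star_smul, hb, star_mul, star_mul, star_star, star_star]
  -- the congruences at the real places
  have hcong : ∀ (w : E →+* ℂ) (hw : ∀ x, w (S.s x) = star (w x)),
      ∃ (ε : ℝ) (Q : Matrix (Fin 3) (Fin 3) ℂ), ε ≠ 0 ∧
        ((w (algebraMap K E b)).re < 0 → 0 < ε) ∧ IsUnit Q ∧
        Q * ((ε : ℂ) • ((S.rd w hw).f 1 * (S.rd w hw).A)) * Qᴴ =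
          (S.rd w hw).f g * (S.rd w hw).A := by
    intro w hw
    obtain ⟨ε, Q, hε, hs, hQ, h⟩ := hsig w hw
    refine ⟨ε, Q, hε, hs, hQ, ?_⟩
    rw [map_one, one_mul, hg]
    exact h
  obtain ⟨μ, δ, hμ, -, hδ, hgμ, hpos⟩ := S.similar hK hgs (star_one _) hg0 one_ne_zero
    (fun w hw => by
      obtain ⟨ε, Q, hε, -, hQ, h⟩ := hcong w hw
      exact ⟨ε, Q, hε, hQ, h⟩)
  have hμ0 : μ ≠ 0 := by
    rintro rfl
    exact hg0 (by rw [hgμ, zero_smul])
  obtain ⟨κ₁, κ₂, hκ⟩ := exists_kappa hK hb hb0 hμ hμ0 (by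
    intro r hr hbr
    obtain ⟨w, hwr⟩ := S.exists_ext r
    have hwr' : ∀ x, w (algebraMap K E x) = r x := fun x => DFunLike.congr_fun hwr x
    have hw : ∀ x, w (S.s x) = star (w x) :=
      Dat.s_conj w fun x => by rw [hwr', hwr', hr]
    obtain ⟨ε, Q, hε, hs, hQ, h⟩ := hcong w hw
    obtain ⟨t, ht, h3⟩ := hpos w hw ε Q hQ h
    have hε' : 0 < ε := hs (by rw [hwr']; exact hbr)
    rw [← hwr', h3, ← Complex.ofReal_pow, ← Complex.ofReal_mul, Complex.ofReal_re]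
    positivity)
  obtain ⟨m, δ', hm, hδ', h⟩ := exists_move S.f hK (by norm_num) S.finrank_D hb
    (aniso_b S hb hbn) hμ0 hκ (z₁ := z₁) (z₂ := z₂) hδ (by rw [← hg, hgμ, mul_one])
  exact ⟨m, δ', κ₁, κ₂, hm, hδ', by rw [hκ]; exact hμ0, h⟩

end Vale.Agent.P011.E6X
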