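import Vale.Agent.P011.E6X.Defs
import Vale.Agent.P011.E6O.Trans
import Vale.Agent.P011.E6X.TransX
import Vale.Agent.P011.E6X.Dict
import Vale.Agent.P011.E6O.H68.S3a

/-!
The cyclic algebra attached to the data of the outer group, without any condition at the real
places: the anisotropic form, the moves of the lines with standard signatures and the matched pairs.
-/

open Matrix Module NumberField

namespace Vale.Agent.P011.E6X

open Vale.Agent.P011.E6O

open Vale.Agent.P011.MPQ Vale.Agent.P011.D4 Vale.Agent.P011.D4.Oct Vale.Agent.P011.E6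
open Vale.Agent.P011.E6I (MQ toMQ u0)
open Vale.Agent.P011S (redNorm)
open Vale.Agent.P011.E6O.H68 (Hf Hi Hf_Hi Hi_Hf)

section form

variable {K E : Type} [Field K] [StarRing K] [Field E] [Algebra K E] (S : Dat K E)

theorem Hb_eq (β : K) : Hb K S.D β = Hi S β := by
  rw [Hb, Hi, map_neg]

/-- The two conventions of the isometries. -/
theorem IsSU2.hf {β : K} (h0 : β ≠ 0) {m : Matrix (Fin 2) (Fin 2) S.D} (hm : IsSU2 S.f β m) :
    mᴴ * Hf S β * m = Hf S β := by
  have h1 := hm.isom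
  rw [Hb_eq] at h1
  have h2 : m * (Hi S β * mᴴ * Hf S β) = 1 := by
    rw [← Matrix.mul_assoc, ← Matrix.mul_assoc, h1, Hi_Hf S h0]
  have h3 : (Hi S β * mᴴ * Hf S β) * m = 1 := mul_eq_one_comm.mp h2
  have h4 := congrArg (fun x => Hf S β * x) h3
  simpa only [← Matrix.mul_assoc, Hf_Hi S h0, Matrix.one_mul, Matrix.mul_one] using h4

theorem redNorm_diag (t t' : S.D) :
    redNorm S.f (Fin 2) (Matrix.diagonal ![t, t']) = (S.f t).det * (S.f t').det := by
  rw [E6O.H68.redNorm_eq]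
  have e : (Matrix.of fun a b : Fin 2 × Fin 3 =>
      S.f ((Matrix.diagonal ![t, t'] : Matrix (Fin 2) (Fin 2) S.D) a.1 b.1) a.2 b.2) =
      (Matrix.blockDiagonal fun i => S.f ((![t, t'] : Fin 2 → S.D) i)).submatrix
        (Equiv.prodComm (Fin 2) (Fin 3)) (Equiv.prodComm (Fin 2) (Fin 3)) := by
    ext ⟨i, p⟩ ⟨j, q⟩
    rw [Matrix.of_apply, Matrix.submatrix_apply, Matrix.diagonal_apply]
    change _ = Matrix.blockDiagonal _ (p, i) (q, j)
    rw [Matrix.blockDiagonal_apply]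
    dsimp only
    split
    · rfl
    · rw [map_zero]
      rfl
  rw [e, Matrix.det_submatrix_equiv_self, Matrix.det_blockDiagonal, Fin.prod_univ_two]
  rfl

end form

section hyp

variable {k E : Type} [Field k] [NumberField k] [Field E] [NumberField E] [Algebra k E]
  {ρ σ : E ≃ₐ[k] E} {lam : Eˣ} {g : Fin 3 → Eˣ} {al s : E} {a b c : kˣ}

/-- The properties of the cyclic algebra attached to the data of the outer group. -/
structure IsDat (ρ σ : E ≃ₐ[k] E) (lam : Eˣ) (g : Fin 3 → Eˣ) (b : kˣ) {K : Type} [Field K]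
    [NumberField K] [StarRing K] [Algebra K E] (S : Dat K E) (β : K) : Prop where
  eqρ : ∀ x, S.ρ x = ρ x
  eqs : ∀ x, S.s x = σ x
  eqlam : algebraMap K E (S.lam : K) = lam
  eqG : S.G = g
  fix : ∀ x : E, ρ x = x → ∃ t : K, algebraMap K E t = x
  fix' : ∀ t : K, ρ (algebraMap K E t) = algebraMap K E t
  eqstar : ∀ t : K, algebraMap K E (star t) = σ (algebraMap K E t)
  hK : ∃ t : K, star t ≠ t
  eqβ : algebraMap K E β = up E b
  sβ : star β = β
  β0 : β ≠ 0
  /-- `β` is not a norm -/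
  not_norm : ∀ x : K, x * star x ≠ β
  /-- the form is anisotropic -/
  an : ∀ x y : S.D, x * star x + y * algebraMap K S.D (-β) * star y = 0 → x = 0 ∧ y = 0
  /-- every line with standard signatures is moved to a line defined over the centre -/
  T : ∀ z₁ z₂ : S.D, z₁ ≠ 0 ∨ z₂ ≠ 0 →
    (∀ w : E →+* ℂ, (∀ x, w (σ x) = star (w x)) →
      ∃ (ε : ℝ) (Q : Matrix (Fin 3) (Fin 3) ℂ), ε ≠ 0 ∧
        ((w (algebraMap k E b)).re < 0 → 0 < ε) ∧ IsUnit Q ∧
        Q * ((ε : ℂ) • Matrix.diagonal (fun i => (w (g i))⁻¹)) * Qᴴ =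
          (S.f (z₁ * star z₁ - β • (z₂ * star z₂))).map w *
            Matrix.diagonal (fun i => (w (g i))⁻¹)) →
    ∃ (m : Matrix (Fin 2) (Fin 2) S.D) (δ : S.D) (κ₁ κ₂ : K),
    δ ≠ 0 ∧ (κ₁ ≠ 0 ∨ κ₂ ≠ 0) ∧ mᴴ * Hf S β * m = Hf S β ∧ redNorm S.f (Fin 2) m = 1 ∧
      z₁ * m 0 0 + z₂ * m 1 0 = δ * algebraMap K S.D κ₁ ∧
      z₁ * m 0 1 + z₂ * m 1 1 = δ * algebraMap K S.D κ₂
  /-- the matched pairs -/
  matched : ∀ t : S.D, t * star t = 1 → ∃ t' : S.D, t' * star t' = 1 ∧
    (S.f t).det * (S.f t').det = 1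

/-- The cyclic algebra attached to the data of the outer group. -/
theorem Hyp.exists_isDat (H : Hyp ρ σ lam g al s a b c) :
    ∃ (K : Type) (_ : Field K) (_ : NumberField K) (_ : StarRing K) (_ : Algebra K E)
      (S : Dat K E) (β : K), IsDat ρ σ lam g b S β := by
  obtain ⟨K, _, _, _, _, S, h1, h2, h3, h4, h5, h6, h7, h8, hK⟩ := H.exists_dat
  obtain ⟨β, hβ⟩ := h6 (algebraMap k E b) (ρ.commutes _)
  have hsβ : star β = β := by
    apply (algebraMap K E).injective
    rw [h8, hβ, AlgEquiv.commutes]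
  have hβ0 : β ≠ 0 := by
    rintro rfl
    rw [map_zero] at hβ
    exact b.ne_zero ((map_eq_zero _).mp hβ.symm)
  have hn : ∀ x : K, x * star x ≠ β := by
    intro x hx
    apply H.not_norm (h7 x)
    rw [← h8, ← map_mul, hx, hβ]
  refine ⟨K, _, _, _, _, S, β, ⟨h1, h2, h3, h4, h6, h7, h8, hK, hβ, hsβ, hβ0, hn, ?_, ?_, ?_⟩⟩
  · intro x y h
    apply aniso_b S hsβ hn
    rw [← h, map_neg, mul_neg, neg_mul, ← sub_eq_add_neg, Algebra.smul_def,
      ← Algebra.commutes β y, mul_assoc]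
  · intro z₁ z₂ hz hsig
    obtain ⟨m, δ, κ₁, κ₂, hm, hδ, hκ, h⟩ := exists_TX S hK hsβ hn z₁ z₂ hz (by
      intro w hw
      have hw' : ∀ x, w (σ x) = star (w x) := fun x => by rw [← h2, hw]
      obtain ⟨ε, Q, hε, hs, hQ, h⟩ := hsig w hw'
      refine ⟨ε, Q, hε, ?_, hQ, ?_⟩
      · rw [hβ]
        exact hs
      · rw [h4]
        exact h)
    refine ⟨m, δ, κ₁, κ₂, hδ, ?_, IsSU2.hf S hβ0 hm, hm.nrm, ?_, ?_⟩
    · by_contra h0
      push Not at h0
      apply hκ
      rw [h0.1, h0.2]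
      simp
    · have := congrArg Prod.fst h
      rw [← Algebra.commutes, ← Algebra.smul_def]
      exact this
    · have := congrArg Prod.snd h
      rw [← Algebra.commutes, ← Algebra.smul_def]
      exact this
  · intro t ht
    obtain ⟨t', ht'⟩ := exists_matched_b S.f hK (by norm_num) S.finrank_D hsβ
      (aniso_b S hsβ hn) ht
    refine ⟨t', ?_, ?_⟩
    · have h := congrArg (fun m => m 1 1) ht'.isom
      simp only [Hb, Matrix.diagonal_mul_diagonal, Matrix.diagonal_conjTranspose,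
        Matrix.diagonal_apply_eq] at h
      change t' * -algebraMap K S.D β * star t' = -algebraMap K S.D β at h
      have hβ' : -algebraMap K S.D β ≠ 0 :=
        neg_ne_zero.mpr fun h => hβ0 ((map_eq_zero _).mp h)
      apply mul_left_cancel₀ hβ'
      rw [mul_one, ← mul_assoc]
      nth_rewrite 2 [← h]
      rw [neg_mul, Algebra.commutes, mul_neg]
    · rw [← redNorm_diag]
      exact ht'.nrm

end hyp

end Vale.Agent.P011.E6X
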