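import Vale.Agent.P011.E6O.Defs2

/-!
Block E6X: the outer groups of type `E₆` attached to a cyclic algebra of degree three with unitary
involution and an octonion algebra which contains the quadratic extension, without conditions at the
real places.
-/

open NumberField

namespace Vale.Agent.P011.E6X

open Vale.Agent.P011.MPQ Vale.Agent.P011.D4 Vale.Agent.P011.D4.Oct Vale.Agent.P011.E6
open Vale.Agent.P011.E6O

variable {k E : Type} [Field k] [Field E] [Algebra k E]

/-- The hypotheses of the theorem, without conditions at the real places. -/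
structure Hyp (ρ σ : E ≃ₐ[k] E) (lam : Eˣ) (g : Fin 3 → Eˣ) (al s : E) (a b c : kˣ) : Prop where
  /-- the extension has degree six -/
  h6 : Module.finrank k E = 6
  /-- `ρ` is not trivial -/
  hρ : ρ ≠ 1
  /-- `ρ` has order three -/
  ρ3 : ∀ x, ρ (ρ (ρ x)) = x
  /-- `σ` is not trivial -/
  hσ : σ ≠ 1
  /-- `σ` has order two -/
  σ2 : ∀ x, σ (σ x) = x
  /-- `ρ` and `σ` commute -/
  comm : ∀ x, ρ (σ x) = σ (ρ x)
  /-- `al` is a square root of `a` -/
  al2 : al ^ 2 = algebraMap k E a
  /-- `al` is fixed by `ρ` -/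
  ρal : ρ al = al
  /-- `σ` changes the sign of `al` -/
  σal : σ al = -al
  /-- `lam` is fixed by `ρ` -/
  ρlam : ρ lam = lam
  /-- the cyclic algebra is not split -/
  hlam : ∀ x, x * ρ x * ρ (ρ x) ≠ lam
  /-- the weights are fixed by `σ` -/
  σg : ∀ i, σ (g i) = g i
  /-- `s` is fixed by `σ` -/
  σs : σ s = s
  /-- the relations between the weights -/
  g1 : (g 1 : E) = s * ρ (g 0)
  /-- the relations between the weights -/
  g2 : (g 2 : E) = s * ρ (g 1)
  /-- the relations between the weights -/
  g0 : (g 0 : E) = lam * σ lam * s * ρ (g 2)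
  /-- the octonion algebra is not split -/
  hdiv : Division a b c

theorem Hyp.of {ρ σ : E ≃ₐ[k] E} {lam : Eˣ} {g : Fin 3 → Eˣ} {al s : E} {a b c : kˣ}
    (H : E6O.Hyp ρ σ lam g al s a b c) : Hyp ρ σ lam g al s a b c :=
  { H with }

end Vale.Agent.P011.E6X
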