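import Vale.Agent.P011.E6X.Defs
import Vale.Agent.P011.E6O.H637.Pt
import Vale.Agent.P011.E6X.Dict
import Vale.Agent.P011.D4.B3

/-!
Block E6O: the classes of the standard points.
-/

open NumberField Matrix

namespace Vale.Agent.P011.E6X

open Vale.Agent.P011.E6O

open Vale.Agent.P011.MPQ Vale.Agent.P011.D4 Vale.Agent.P011.D4.Oct Vale.Agent.P011.E6
open Vale.Agent.P011.E6.Alb

section basic

variable {k E : Type} [Field k] [Field E] [Algebra k E] {a b c : kˣ}

theorem omap_ep {ρ : E ≃ₐ[k] E} {al : E} (h : ρ al = al) (y : Oct a b c) :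
    omap ρ ((⟨ep al, 0⟩ : OctL E a b c) * oup E y) = ⟨ep al, 0⟩ * oup E y := by
  rw [omap_mul, omap_oup]
  congr 1
  ext1
  · ext <;> simp [omap, qmap, ep, h, map_ofNat]
  · exact qmap_zero ρ

theorem omap_ep' {σ : E ≃ₐ[k] E} {al : E} (h : σ al = -al) (y : Oct a b c) :
    omap σ ((⟨ep al, 0⟩ : OctL E a b c) * oup E y) = ⟨E6O.em al, 0⟩ * oup E y := by
  rw [omap_mul, omap_oup]
  congr 1
  ext1
  · ext <;> simp [omap, qmap, ep, E6O.em, h, map_ofNat]
  · exact qmap_zero σ

theorem bil_ep_em [CharZero E] {al : E} (h0 : al ≠ 0) (hal : al ^ 2 = algebraMap k E a)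
    (y : OctL E a b c) : bil (⟨ep al, 0⟩ * y) (⟨E6O.em al, 0⟩ * y) = norm y := by
  rw [bil_mul_mul_right]
  have h : bil (⟨ep al, 0⟩ : OctL E a b c) ⟨E6O.em al, 0⟩ = 1 := by
    rw [bil_eq]
    simp only [ep, E6O.em, QuaternionAlgebra.re_zero, QuaternionAlgebra.imI_zero,
      QuaternionAlgebra.imJ_zero, QuaternionAlgebra.imK_zero]
    change 2 * ((1 / 2 : E) * (1 / 2) - algebraMap k E a * (1 / (2 * al)) * -(1 / (2 * al)) -
      algebraMap k E b * 0 * 0 + algebraMap k E a * algebraMap k E b * 0 * 0) - _ = _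
    rw [← hal]
    field_simp
    ring
  rw [h, mul_one]

/-- The multiplication of the idempotent by an element of `k(i)`. -/
theorem ep_mul [CharZero E] {al : E} (h0 : al ≠ 0) (hal : al ^ 2 = algebraMap k E a) (u0 u1 : k)
    (y : Oct a b c) : (⟨ep al, 0⟩ : OctL E a b c) * oup E ((⟨⟨u0, u1, 0, 0⟩, 0⟩ : Oct a b c) * y) =
      (algebraMap k E u0 + al * algebraMap k E u1) • ((⟨ep al, 0⟩ : OctL E a b c) * oup E y) := by
  have hx : ep al * qup E (⟨u0, u1, 0, 0⟩ : Qt a b) =
      (algebraMap k E u0 + al * algebraMap k E u1) • (ep al : Qt (up E a) (up E b)) := by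
    have h1 : ((up E a : Eˣ) : E) = al ^ 2 := hal.symm
    ext
    · simp only [QuaternionAlgebra.re_mul, QuaternionAlgebra.re_smul, re_qup, imI_qup, imJ_qup,
        imK_qup, ep, smul_eq_mul, h1, map_zero]
      field_simp
      ring
    · simp only [QuaternionAlgebra.imI_mul, QuaternionAlgebra.imI_smul, re_qup, imI_qup, imJ_qup,
        imK_qup, ep, smul_eq_mul, map_zero]
      field_simp
      ring
    · simp only [QuaternionAlgebra.imJ_mul, QuaternionAlgebra.imJ_smul, re_qup, imI_qup, imJ_qup,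
        imK_qup, ep, smul_eq_mul, map_zero]
      ring
    · simp only [QuaternionAlgebra.imK_mul, QuaternionAlgebra.imK_smul, re_qup, imI_qup, imJ_qup,
        imK_qup, ep, smul_eq_mul, map_zero]
      ring
  have hx' : qup E (⟨u0, u1, 0, 0⟩ : Qt a b) * ep al =
      (algebraMap k E u0 + al * algebraMap k E u1) • (ep al : Qt (up E a) (up E b)) := by
    rw [← hx]
    ext
    · simp only [QuaternionAlgebra.re_mul, re_qup, imI_qup, imJ_qup, imK_qup, ep, map_zero]
      ring
    · simp only [QuaternionAlgebra.imI_mul, re_qup, imI_qup, imJ_qup, imK_qup, ep, map_zero]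
      ring
    · simp only [QuaternionAlgebra.imJ_mul, re_qup, imI_qup, imJ_qup, imK_qup, ep, map_zero]
      ring
    · simp only [QuaternionAlgebra.imK_mul, re_qup, imI_qup, imJ_qup, imK_qup, ep, map_zero]
      ring
  rw [oup_mul]
  ext1
  · simp only [oup, fst_mul, snd_mul, fst_smul, qup_zero, mul_zero, zero_mul, smul_zero, add_zero]
    rw [← mul_assoc, hx, smul_mul_assoc]
  · simp only [oup, fst_mul, snd_mul, snd_smul, qup_zero, mul_zero, zero_mul, smul_zero, add_zero]
    rw [mul_assoc, hx', mul_smul_comm]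

/-- An automorphism of the octonion algebra which fixes `i`, on the standard points. -/
theorem autO_pt [NeZero (2 : k)] [CharZero E] {ρ σ : E ≃ₐ[k] E} {lam : Eˣ} {g : Fin 3 → Eˣ}
    {al : E} {f : AutC a b c}
    (hf : f.1 gi = gi) (y : Oct a b c) (r : Fin 3 → E) :
    (autO ρ σ lam g a b c f).1 (pt ((⟨ep al, 0⟩ : OctL E a b c) * oup E y) r) =
      pt (⟨ep al, 0⟩ * oup E (f.1 y)) r := by
  have h1 : ∀ y : Oct a b c, (⟨ep al, 0⟩ : OctL E a b c) * oup E y =
      (1 / 2 : E) • oup E y + (1 / (2 * al)) • oup E (gi * y) := by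
    intro y
    have h2 : (⟨ep al, 0⟩ : OctL E a b c) =
        (1 / 2 : E) • (1 : OctL E a b c) + (1 / (2 * al)) • oup E gi := by
      ext <;> simp [ep, gi, oup]
    rw [h2, add_mul, smul_mul_assoc, smul_mul_assoc, one_mul, oup_mul]
  have h3 : ∀ (y : Oct a b c) (r : Fin 3 → E),
      (autO ρ σ lam g a b c f).1 (pt (oup E y) r) = pt (oup E (f.1 y)) r := by
    intro y r
    have h4 : ∀ y : Oct a b c, pt (oup E y) r = r 0 • aup E (⟨0, 0, 0, y, 0, 0⟩ : Alb a b c) +
        r 1 • aup E (⟨0, 0, 0, 0, y, 0⟩ : Alb a b c) +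
        r 2 • aup E (⟨0, 0, 0, 0, 0, y⟩ : Alb a b c) := by
      intro y
      rw [pt_apply]
      ext1 <;> simp [aup]
    rw [h4, h4, map_add, map_add, map_smul, map_smul, map_smul, autO_aup, autO_aup, autO_aup]
    simp only [omapA, map_zero]
  have h5 : ∀ (s t : E) (x y : OctL E a b c) (r : Fin 3 → E),
      pt (s • x + t • y) r = s • pt x r + t • pt y r := by
    intro s t x y r
    rw [pt_apply, pt_apply, pt_apply]
    ext1 <;> simp [smul_smul, mul_comm]
  rw [h1, h1, h5, h5, map_add, map_smul, map_smul, h3, h3, f.2, hf]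

end basic

section main

variable {k E : Type} [Field k] [NumberField k] [Field E] [NumberField E] [Algebra k E]
  {ρ σ : E ≃ₐ[k] E} {lam : Eˣ} {g : Fin 3 → Eˣ} {al s : E} {a b c : kˣ}
  (H : Hyp ρ σ lam g al s a b c)

include H

omit [NumberField k] in
/-- The determinant of a map between two standard points. -/
theorem exists_det {h : AlbL E a b c ≃ₗ[E] AlbL E a b c} (hh : h ∈ GO ρ σ lam g a b c)
    {l w : Oct a b c} (hw : w ≠ 0)
    (hA : (Pw al l).map (h : AlbL E a b c →ₗ[E] AlbL E a b c) = Pw al w) :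
    ∃ d : E, ρ d = d ∧
      algebraMap k E (norm l) ^ 3 = d * σ d * algebraMap k E (norm w) ^ 3 := by
  obtain ⟨d, hd⟩ := exists_mat hA
  have hx : (⟨ep al, 0⟩ : OctL E a b c) * oup E w ≠ 0 := by
    intro h0
    have h1 := bil_ep_em H.al_ne H.al2 (oup E w)
    rw [h0, bil_zero_left, norm_oup] at h1
    exact hw (H.hdiv _ ((map_eq_zero _).mp h1.symm))
  set U : Matrix (Fin 3) (Fin 3) E := !![0, 1, 0; 0, 0, 1; (lam : E), 0, 0] with hU
  -- the semilinear map
  have h1 : ∀ r : Fin 3 → E, (fun i => ρ (r i)) ᵥ* (U * d) =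
      (fun i => ρ (r i)) ᵥ* ((d.map ρ) * U) := by
    intro r
    apply pt_inj hx
    have h2 := hh.2.1 (pt ((⟨ep al, 0⟩ : OctL E a b c) * oup E l) r)
    rw [ph_pt (omap_ep H.ρal l), hd, hd, ph_pt (omap_ep H.ρal w)] at h2
    rw [← Matrix.vecMul_vecMul, h2, ← Matrix.vecMul_vecMul]
    congr 2
    funext j
    simp only [Matrix.vecMul, dotProduct, map_sum, map_mul, Matrix.map_apply]
  have h3 : U * d = d.map ρ * U := by
    apply Matrix.ext_of_single_vecMul
    intro i
    have h4 := h1 (Pi.single i 1)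
    have h5 : (fun j => ρ ((Pi.single i 1 : Fin 3 → E) j)) = Pi.single i 1 := by
      funext j
      by_cases hj : j = i
      · subst hj
        rw [Pi.single_eq_same, map_one]
      · rw [Pi.single_eq_of_ne hj, map_zero]
    rw [h5] at h4
    exact h4
  have hUd : U.det = lam := by
    rw [hU, Matrix.det_fin_three]
    simp
  have h4 : d.det = ρ d.det := by
    have h5 := congrArg Matrix.det h3
    rw [Matrix.det_mul, Matrix.det_mul, hUd, mul_comm] at h5
    have h6 := mul_right_cancel₀ lam.ne_zero h5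
    exact h6.trans (AlgEquiv.map_det ρ d).symm
  -- the hermitian form
  set G : Matrix (Fin 3) (Fin 3) E := Matrix.diagonal ![(g 1 : E) * g 2, g 2 * g 0, g 0 * g 1]
    with hG
  have h5 : ∀ r t : Fin 3 → E, (g 1 * g 2 * r 0 * σ (t 0) + g 2 * g 0 * r 1 * σ (t 1) +
      g 0 * g 1 * r 2 * σ (t 2) : E) = (r ᵥ* G) ⬝ᵥ fun i => σ (t i) := by
    intro r t
    rw [hG, dotProduct, Fin.sum_univ_three]
    simp only [Matrix.vecMul_diagonal]
    simp
    ring
  have h6 : ∀ r t : Fin 3 → E, algebraMap k E (norm w) *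
      (((r ᵥ* d) ᵥ* G) ⬝ᵥ fun i => σ ((t ᵥ* d) i)) =
        algebraMap k E (norm l) * ((r ᵥ* G) ⬝ᵥ fun i => σ (t i)) := by
    intro r t
    have h7 := hh.2.2 (pt ((⟨ep al, 0⟩ : OctL E a b c) * oup E l) r)
      (pt ((⟨ep al, 0⟩ : OctL E a b c) * oup E l) t)
    rw [hd, hd, her_pt, her_pt, omap_ep' H.σal, omap_ep' H.σal, bil_ep_em H.al_ne H.al2,
      bil_ep_em H.al_ne H.al2, norm_oup, norm_oup, h5, h5] at h7
    exact h7
  have h7 : algebraMap k E (norm w) • (d * G * (d.map σ).transpose) =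
      algebraMap k E (norm l) • G := by
    ext i j
    have h8 := h6 (Pi.single i 1) (Pi.single j 1)
    have h9 : (fun m => σ ((Pi.single j 1 : Fin 3 → E) m)) = Pi.single j 1 := by
      funext m
      by_cases hj : m = j
      · subst hj
        rw [Pi.single_eq_same, map_one]
      · rw [Pi.single_eq_of_ne hj, map_zero]
    rw [h9, Matrix.single_one_vecMul, Matrix.single_one_vecMul, Matrix.single_one_vecMul,
      dotProduct_single, mul_one] at h8
    rw [Matrix.smul_apply, Matrix.smul_apply, smul_eq_mul, smul_eq_mul]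
    exact h8
  refine ⟨d.det, h4.symm, ?_⟩
  have h8 := congrArg Matrix.det h7
  rw [Matrix.det_smul, Matrix.det_smul, Matrix.det_mul, Matrix.det_mul, Matrix.det_transpose,
    Fintype.card_fin] at h8
  have h9 : (d.map σ).det = σ d.det := (AlgEquiv.map_det σ d).symm
  have h10 : G.det ≠ 0 := by
    rw [hG, Matrix.det_diagonal, Fin.prod_univ_three]
    simp
  rw [h9] at h8
  apply mul_right_cancel₀ h10
  linear_combination -h8

/-- The classes: `n(w)` and `n(l)` differ by a norm, and an automorphism carries `w` to `l`. -/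
theorem end1 {h : AlbL E a b c ≃ₗ[E] AlbL E a b c} (hh : h ∈ GO ρ σ lam g a b c)
    {w : Oct a b c} (hw : Perp w)
    (hA : (Pw al (gl : Oct a b c)).map (h : AlbL E a b c →ₗ[E] AlbL E a b c) = Pw al w) :
    ∃ n ∈ Res ρ σ lam g a b c,
      (Pw al (gl : Oct a b c)).map ((n * h : AlbL E a b c ≃ₗ[E] AlbL E a b c) :
        AlbL E a b c →ₗ[E] AlbL E a b c) = Pw al gl := by
  obtain ⟨d, hρd, hd⟩ := exists_det H hh hw.ne hA
  have hnw : norm w ≠ 0 := fun h => hw.ne (H.hdiv _ h)
  have hnl : norm (gl : Oct a b c) = -(c : k) := by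
    simp [Oct.norm, nrd, gl]
  have hnl0 : norm (gl : Oct a b c) ≠ 0 := by
    rw [hnl]
    exact neg_ne_zero.mpr c.ne_zero
  have hnw' : algebraMap k E (norm w) ≠ 0 := (map_ne_zero _).mpr hnw
  have hnl' : algebraMap k E (norm (gl : Oct a b c)) ≠ 0 := (map_ne_zero _).mpr hnl0
  -- the norm
  obtain ⟨u0, u1, hu⟩ := H.exists_kal
    (x := algebraMap k E (norm w) / algebraMap k E (norm (gl : Oct a b c)) * d)
    (by rw [map_mul, map_div₀, AlgEquiv.commutes, AlgEquiv.commutes, hρd])
  have ht : (algebraMap k E u0 + al * algebraMap k E u1) *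
      (algebraMap k E u0 - al * algebraMap k E u1) * algebraMap k E (norm w) =
        algebraMap k E (norm (gl : Oct a b c)) := by
    have h1 : algebraMap k E u0 - al * algebraMap k E u1 =
        σ (algebraMap k E u0 + al * algebraMap k E u1) := by
      rw [map_add, map_mul, AlgEquiv.commutes, AlgEquiv.commutes, H.σal]
      ring
    rw [h1, ← hu, map_mul, map_div₀, AlgEquiv.commutes, AlgEquiv.commutes]
    field_simp
    linear_combination -hd
  have ht0 : algebraMap k E u0 + al * algebraMap k E u1 ≠ 0 := by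
    intro h0
    rw [h0, zero_mul, zero_mul] at ht
    exact hnl' ht.symm
  have hk : (u0 ^ 2 - a * u1 ^ 2) * norm w = norm (gl : Oct a b c) := by
    apply (algebraMap k E).injective
    rw [map_mul, map_sub, map_mul, map_pow, map_pow, ← H.al2, ← ht]
    ring
  -- the new octonion
  obtain ⟨w', hw'⟩ : ∃ w' : Oct a b c, w' = (⟨⟨u0, u1, 0, 0⟩, 0⟩ : Oct a b c) * w := ⟨_, rfl⟩
  have hP : Pw al w' = Pw al w := by
    rw [hw', Pw, ep_mul H.al_ne H.al2, Apt_smul ht0, Pw]
  have hw1 : w.fst.re = 0 := by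
    have h1 := congrArg (fun x : Oct a b c => x.fst.re) hw.tr
    simp at h1
    have h2 : (2 : k) * w.fst.re = 0 := by linear_combination h1
    exact (mul_eq_zero.mp h2).resolve_left two_ne_zero
  have hw2 : w.fst.imI = 0 := by
    have h1 := hw.i
    simp [dot, gi] at h1
    exact h1
  have hn' : norm w' = norm (gl : Oct a b c) := by
    rw [hw', Oct.norm_mul, ← hk]
    congr 1
    simp [Oct.norm, nrd]
  have hs' : star w' = -w' := by
    rw [hw']
    ext <;> simp [hw1, hw2] <;> ring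
  have hi' : dot gi w' = 0 := by
    rw [hw']
    simp [dot, gi, hw1, hw2]
  obtain ⟨v, hv0, hv⟩ := exists_perp
    (![1, gi, gl - w', gi * (gl - w'), 0, 0, 0] : Fin 7 → Oct a b c)
  have hv1 : dot v 1 = 0 := hv 0
  have hv2 : dot v gi = 0 := hv 1
  have hv3 : dot v (gl - w') = 0 := hv 2
  have hv4 : dot v (gi * (gl - w')) = 0 := hv 3
  have hstd := trip_std (a := a) (b := b) (c := c)
  have hi0 : (gi : Oct a b c) ≠ 0 := by
    intro h
    have := congrArg (fun x : Oct a b c => x.fst.imI) h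
    simp [gi] at this
  obtain ⟨f, hfi, -, hfw⟩ := exists_move H.hdiv hstd.si hi0 (star_iff_dot.2 hv1) hv0
    (by rw [dot_comm, hv2]) hs' hstd.sl hn'.symm
    (by rw [dot_sub_right, hstd.il, hi', sub_zero]) hv3
    (by rw [dot_mul_left, hstd.si, neg_mul, dot_neg_right, hv4, neg_zero])
  refine ⟨(autO ρ σ lam g a b c f).1, ⟨_, autO_mem H.hdiv f, rfl⟩, ?_⟩
  have h1 : (Pw al (gl : Oct a b c)).map (((autO ρ σ lam g a b c f).1 * h :
      AlbL E a b c ≃ₗ[E] AlbL E a b c) : AlbL E a b c →ₗ[E] AlbL E a b c) =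
      ((Pw al (gl : Oct a b c)).map (h : AlbL E a b c →ₗ[E] AlbL E a b c)).map
        ((autO ρ σ lam g a b c f).1 : AlbL E a b c →ₗ[E] AlbL E a b c) := by
    rw [← Submodule.map_comp]
    rfl
  rw [h1, hA, ← hP]
  apply le_antisymm
  · rintro _ ⟨x, hx, rfl⟩
    obtain ⟨r, rfl⟩ := mem_Apt_pt.mp hx
    refine mem_Apt_pt.mpr ⟨r, ?_⟩
    rw [← hfw]
    exact autO_pt hfi w' r
  · intro x hx
    obtain ⟨r, rfl⟩ := mem_Apt_pt.mp hx
    refine ⟨_, pt_mem _ r, ?_⟩
    rw [← hfw]
    exact autO_pt hfi w' r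

end main

end Vale.Agent.P011.E6X
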