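import Vale.Agent.P011.E6X.Defs
import Vale.Agent.P011.E6O.H408.Fs
import Vale.Agent.P011.E6X.MatchedH
import Vale.Agent.P011.E6X.SuRes
import Vale.Agent.P011.E6X.Trip
import Vale.Agent.P011.E6X.End3

/-!
The stabilizer of the standard point.
-/

open Matrix

namespace Vale.Agent.P011.E6X

open Vale.Agent.P011.E6O Vale.Agent.P011.E6O.H408

open Vale.Agent.P011.MPQ Vale.Agent.P011.D4 Vale.Agent.P011.D4.Oct Vale.Agent.P011.E6
open Vale.Agent.P011.E6.Alb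
open Vale.Agent.P011.E6I (MQ toMQ)
open H408

namespace H408

variable {k E : Type} [Field k] [Field E] [Algebra k E]
  {ρ σ : E ≃ₐ[k] E} {lam : Eˣ} {g : Fin 3 → Eˣ} {a b c : kˣ} {al : E}

theorem ep_gl : (⟨ep al, 0⟩ * oup E (gl : Oct a b c) : OctL E a b c) = xp al := by
  rw [oup_gl]
  ext1 <;> simp [xp, gl]

theorem em_gl : (⟨E6O.em al, 0⟩ * oup E (gl : Oct a b c) : OctL E a b c) = xm al := by
  rw [oup_gl]
  ext1 <;> simp [xm, gl]

theorem mem_Pw {y : AlbL E a b c} : y ∈ Pw al (gl : Oct a b c) ↔ ∃ r, y = pt (xp al) r := by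
  rw [← ep_gl]
  exact Iff.rfl

theorem mem_Pm {y : AlbL E a b c} : y ∈ Pm al (gl : Oct a b c) ↔ ∃ r, y = pt (xm al) r := by
  rw [← em_gl]
  exact Iff.rfl

theorem inD0_one : InD0 ρ lam (1 : Matrix (Fin 3) (Fin 3) E) := by
  rw [InD0, Matrix.one_mul, Matrix.map_one _ (map_zero ρ) (map_one ρ), Matrix.mul_one]

theorem un_one : ((1 : Matrix (Fin 3) (Fin 3) E).map σ)ᵀ *
    Matrix.diagonal (fun i => (g i : E)) * 1 = Matrix.diagonal (fun i => (g i : E)) := by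
  rw [Matrix.map_one _ (map_zero σ) (map_one σ), Matrix.transpose_one, Matrix.one_mul,
    Matrix.mul_one]

end H408

open Vale.Agent.P011.E6X.H408

variable {k E : Type} [Field k] [NumberField k] [Field E] [NumberField E] [Algebra k E]
  {ρ σ : E ≃ₐ[k] E} {lam : Eˣ} {g : Fin 3 → Eˣ} {al s : E} {a b c : kˣ}

/-- The stabiliser of the standard point. -/
theorem end2 (H : Hyp ρ σ lam g al s a b c) {h : AlbL E a b c ≃ₗ[E] AlbL E a b c}
    (hh : h ∈ GO ρ σ lam g a b c)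
    (hA : (Pw al (gl : Oct a b c)).map (h : AlbL E a b c →ₗ[E] AlbL E a b c) = Pw al gl) :
    h ∈ Res ρ σ lam g a b c := by
  have hal := H.al2
  have hc : -algebraMap k E c ≠ 0 := by
    rw [neg_ne_zero, map_ne_zero]
    exact c.ne_zero
  have h1 : ∀ i, ∃ t, h (pt (xp al) (Pi.single i 1)) = pt (xp al) t := by
    intro i
    have h0 : h (pt (xp al) (Pi.single i 1)) ∈ Pw al (gl : Oct a b c) := by
      rw [← hA]
      exact Submodule.mem_map_of_mem (mem_Pw.2 ⟨_, rfl⟩)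
    exact mem_Pw.1 h0
  obtain ⟨δ, hδ⟩ := exists_mat h1
  have hδD := inD0_of H.ρ3 H.ρlam hh.2.1 (xp_ne hal) (omap_xp' H.ρal) (omap_xp' H.ρal) hδ
  have hbp : bil (xp al : OctL E a b c) (omap σ (xp al)) = -algebraMap k E c := by
    rw [omap_xp H.σal, bil_xp_xm hal]
  have hbm : bil (xm al : OctL E a b c) (omap σ (xm al)) = -algebraMap k E c := by
    rw [omap_xm H.σal, bil_comm, bil_xp_xm hal]
  have hδu := unitary_iff (smul_right_injective _ hc (unitary_of hh.2.2 hbp hbp hδ))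
  obtain ⟨z', m, hz', hzu', hdet, hm, hmD, hmU, hmn⟩ := matched H hδD hδu
  obtain ⟨φ1, hφ1G, hφ1⟩ := exists_act H hmD hmU hmn
  have hφ1R : φ1 ∈ Res ρ σ lam g a b c := su_Res H hmD hmU hmn hφ1
  have hδ0 : IsUnit δ.det := IsUnit.of_mul_eq_one _ hdet
  have hz0 : IsUnit z'.det := IsUnit.of_mul_eq_one _ (by rw [mul_comm]; exact hdet)
  have hminv : ((m⁻¹ : (MQ E a b)ˣ) : MQ E a b) = mq al δ⁻¹ z'⁻¹ := by
    apply Units.inv_eq_of_mul_eq_one_right
    rw [hm, mq_eq hal, mq_mul hal, Matrix.mul_nonsing_inv _ hδ0, Matrix.mul_nonsing_inv _ hz0,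
      mq_one]
  have h2 : ∀ r, (φ1 * h) (pt (xp al) r) = pt (xp al) r := by
    intro r
    rw [LinearEquiv.mul_apply, hδ, hφ1, (act_pt hal hminv _).1, Matrix.vecMul_vecMul,
      Matrix.mul_nonsing_inv _ hδ0, Matrix.vecMul_one]
  have hG2 : φ1 * h ∈ GO ρ σ lam g a b c := mul_mem hφ1G hh
  obtain ⟨D, hD⟩ := exists_D hal H.σal H.σ2 hG2.1 hG2.2.2 h2
  have hDD := inD0_of H.ρ3 H.ρlam hG2.2.1 (xm_ne hal) (omap_xm' H.ρal) (omap_xm' H.ρal) hD
  have hDu := unitary_iff (smul_right_injective _ hc (unitary_of hG2.2.2 hbm hbm hD))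
  have hDd : D.det = 1 := by
    have e := map_Zt hal H.σal H.σ2 hG2.1 hG2.2.2 h2 hD 1
    have e2 := hG2.1 (Zt al 1)
    rw [e, cub_Zt hal, cub_Zt hal, Matrix.mul_one, Matrix.det_transpose, det_Dw,
      Matrix.det_one] at e2
    apply σ.injective
    rw [e2, map_one]
  obtain ⟨m2, hm2, hm2i, hm2D, hm2U, hm2n⟩ := exists_m (a := a) (b := b) (g := g) hal H.ρal H.σal
    inD0_one hDD un_one hDu (by rw [hDd, Matrix.det_one, one_mul])
  obtain ⟨φ2, hφ2G, hφ2⟩ := exists_act H hm2D hm2U hm2n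
  have hφ2R : φ2 ∈ Res ρ σ lam g a b c := su_Res H hm2D hm2U hm2n hφ2
  have h3 : ∀ r, (φ2 * (φ1 * h)) (pt (xp al) r) = pt (xp al) r := by
    intro r
    rw [LinearEquiv.mul_apply, h2, hφ2, (act_pt hal hm2i _).1, inv_one, Matrix.vecMul_one]
  have h4 : ∀ r, (φ2 * (φ1 * h)) (pt (xm al) r) = pt (xm al) r := by
    intro r
    have hD0 : IsUnit D.det := by rw [hDd]; exact isUnit_one
    rw [LinearEquiv.mul_apply, hD, hφ2, (act_pt hal hm2i _).2, Matrix.vecMul_vecMul,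
      Matrix.mul_nonsing_inv _ hD0, Matrix.vecMul_one]
  obtain ⟨f, hf⟩ := end3 H (h := φ2 * (φ1 * h)) (mul_mem hφ2G hG2)
    (fun x hx => by
      obtain ⟨r, rfl⟩ := mem_Pw.1 hx
      exact h3 r)
    (fun x hx => by
      obtain ⟨r, rfl⟩ := mem_Pm.1 hx
      exact h4 r)
  have h5 : φ2 * (φ1 * h) ∈ Res ρ σ lam g a b c := aut_Res H f hf
  have h6 : h = φ1⁻¹ * (φ2⁻¹ * (φ2 * (φ1 * h))) := by group
  rw [h6]
  exact Subgroup.mul_mem _ (Subgroup.inv_mem _ hφ1R)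
    (Subgroup.mul_mem _ (Subgroup.inv_mem _ hφ2R) h5)

end Vale.Agent.P011.E6X
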