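import Vale.Agent.P011.E6X.Defs
import Vale.Agent.P011.E6X.TitsB
import Vale.Agent.P011.E6O.H370.Rot
import Vale.Agent.P011.E6X.Pt
import Vale.Agent.P011.E6X.Dict

/-!
The change of coordinates which carries a line to the standard line.
-/

open Matrix

namespace Vale.Agent.P011.E6X.Sl

open Vale.Agent.P011.E6O Vale.Agent.P011.E6O.Sl

open Vale.Agent.P011.MPQ Vale.Agent.P011.D4 Vale.Agent.P011.D4.Oct Vale.Agent.P011.E6

variable {k E : Type} [Field k] [Field E] [Algebra k E]
  {ρ σ : E ≃ₐ[k] E} {lam : Eˣ} {g : Fin 3 → Eˣ} {al s : E} {a b c : kˣ}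

/-- The octonions in a line, after the change of coordinates. -/
theorem emb_oI (h2 : (2 : E) ≠ 0) (hal : al ^ 2 = algebraMap k E a) (u0 u1 v0 v1 : k) (b' : kˣ)
    (p q : E) :
    emb (oup E (gi : Oct a b c)) (oup E (rj a b c u0 u1 v0 v1)) (oup E gl)
      (⟨0, mkq (up E a) (up E b') al p 0 q 0⟩ : OctL E a b' c) =
    ⟨mkq _ _ al 0 0 0 (algebraMap k E c * (algebraMap k E v0 - al * algebraMap k E v1) * q),
      mkq _ _ al p 0 ((algebraMap k E u0 + al * algebraMap k E u1) * q) 0⟩ := by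
  have hal' : al ^ 2 = ((up E a : Eˣ) : E) := hal
  have ha : al ≠ 0 := by
    rintro rfl
    exact (up E a).ne_zero (by rw [← hal']; ring)
  obtain ⟨e1, e3, e4, e5, e6, e7, e8, e9⟩ := rot_oct (b := b) (c := c) hal u0 u1 v0 v1
    (⟨0, mkq (up E a) (up E b') al p 0 q 0⟩ : OctL E a b' c) rfl
  obtain ⟨m1, m3, m4, m5⟩ := mkq_co (a := up E a) (b := up E b') h2 hal' p 0 q 0
  simp only [ca, cb, cg, cd] at m1 m3 m4 m5
  apply Oct.ext
  · obtain ⟨n1, n3, n4, n5⟩ := mkq_co (a := up E a) (b := up E b) h2 hal' 0 0 0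
      (algebraMap k E c * (algebraMap k E v0 - al * algebraMap k E v1) * q)
    apply ext_co h2 hal'
    · rw [n1, ca, e1, e3]
      simp
    · rw [n3, cb, e1, e3]
      simp
    · rw [n4, cg, e6]
      simp only [QuaternionAlgebra.imJ_zero, QuaternionAlgebra.imK_zero]
      linear_combination algebraMap k E c * (algebraMap k E v0 + al * algebraMap k E v1) * m5
    · rw [n5, cd, e8]
      simp only [QuaternionAlgebra.imJ_zero, QuaternionAlgebra.imK_zero]
      linear_combination algebraMap k E c * (algebraMap k E v0 - al * algebraMap k E v1) * m4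
  · obtain ⟨n1, n3, n4, n5⟩ := mkq_co (a := up E a) (b := up E b) h2 hal' p 0
      ((algebraMap k E u0 + al * algebraMap k E u1) * q) 0
    apply ext_co h2 hal'
    · rw [n1, ca, e4, e5]
      exact m1
    · rw [n3, cb, e4, e5]
      exact m3
    · rw [n4, cg, e9]
      simp only [QuaternionAlgebra.imJ_zero, QuaternionAlgebra.imK_zero]
      linear_combination (algebraMap k E u0 + al * algebraMap k E u1) * m4
    · rw [n5, cd, e7]
      simp only [QuaternionAlgebra.imJ_zero, QuaternionAlgebra.imK_zero]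
      linear_combination (algebraMap k E u0 - al * algebraMap k E u1) * m5

/-- Every line `yI f₁ f₂` is the standard line in suitable coordinates. -/
theorem frame (H : Hyp ρ σ lam g al s a b c) [CharZero k] [CharZero E] {f1 f2 : E}
    (h1 : ρ f1 = f1) (h2 : ρ f2 = f2) (h0 : f1 ≠ 0 ∨ f2 ≠ 0)
    {A : Submodule E (AlbL E a b c)} (hA : ∀ y ∈ A, ∃ u s, y = yI al f1 f2 u s) :
    ∃ (b' : kˣ) (j' : Oct a b c) (ht : Trip a b' c gi j' gl),
      A.map ((tripA E ht).symm : AlbL E a b c →ₗ[E] AlbL E a b' c) ≤ Iln c (ep al) := by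
  have hc : algebraMap k E c ≠ 0 := (up E c).ne_zero
  obtain ⟨u0, u1, hf1⟩ := H.exists_kal h1
  obtain ⟨v0, v1, hf2⟩ := H.exists_kal (x := f2 * (algebraMap k E c)⁻¹)
    (by rw [map_mul, map_inv₀, AlgEquiv.commutes, h2])
  have hf2' : f2 = algebraMap k E c * (algebraMap k E v0 - al * algebraMap k E (-v1)) := by
    rw [map_neg, mul_neg, sub_neg_eq_add, ← hf2]
    field_simp
  obtain ⟨b', -, ht⟩ := exists_rot H.hdiv u0 u1 v0 (-v1) (by
    rintro ⟨e1, e2, e3, e4⟩
    rcases h0 with h | h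
    · exact h (by rw [hf1, e1, e2]; simp)
    · exact h (by rw [hf2', e3, e4]; simp))
  refine ⟨b', _, ht, ?_⟩
  rintro _ ⟨y, hy, rfl⟩
  obtain ⟨u, t, rfl⟩ := hA y hy
  have key : (tripA E ht).symm (yI al f1 f2 u t : AlbL E a b c) =
      (yI al 1 0 u t : AlbL E a b' c) := by
    rw [LinearEquiv.symm_apply_eq, tripA_apply]
    have hz : ∀ p q : E, (⟨mkq (up E a) (up E b') al 0 0 0 (0 * q),
        mkq (up E a) (up E b') al p 0 (1 * q) 0⟩ : OctL E a b' c) =
        ⟨0, mkq (up E a) (up E b') al p 0 q 0⟩ := by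
      intro p q
      rw [zero_mul, one_mul]
      congr 1
      ext <;> simp [mkq]
    simp only [yI, Alb.omapA, hz]
    rw [emb_oI two_ne_zero H.al2, emb_oI two_ne_zero H.al2, emb_oI two_ne_zero H.al2, ← hf1,
      ← hf2']
  change (tripA E ht).symm (yI al f1 f2 u t : AlbL E a b c) ∈ _
  rw [key, H493.mem_Iln_ep H.al2]
  have hal' : al ^ 2 = ((up E a : Eˣ) : E) := H.al2
  simp [yI, mkq_co two_ne_zero hal']
  ext <;> simp [mkq]

end Vale.Agent.P011.E6X.Sl
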