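import Vale.Agent.P011.E6X.Defs
import Vale.Agent.P011.E6X.Her

/-!
A point of the line which is orthogonal to a given point.
-/

open NumberField

namespace Vale.Agent.P011.E6X.H493

open Vale.Agent.P011.E6O

open Vale.Agent.P011.MPQ Vale.Agent.P011.D4 Vale.Agent.P011.D4.Oct Vale.Agent.P011.E6 Alb

variable {k E : Type} [Field k] [Field E] [Algebra k E]
  {ρ σ : E ≃ₐ[k] E} {lam : Eˣ} {g : Fin 3 → Eˣ} {al s : E} {a b c : kˣ}

theorem amap_add' (x y : AlbL E a b c) : amap σ (x + y) = amap σ x + amap σ y := by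
  apply Alb.ext <;> simp [amap, omap_add]

theorem amap_smul' (t : E) (x : AlbL E a b c) : amap σ (t • x) = σ t • amap σ x := by
  apply Alb.ext <;> simp [amap, omap_smul]

theorem her_add_right (x y z : AlbL E a b c) : her σ g x (y + z) = her σ g x y + her σ g x z := by
  rw [her, her, her, amap_add', tf_add_right]

theorem her_smul_right (t : E) (x z : AlbL E a b c) :
    her σ g x (t • z) = σ t * her σ g x z := by
  rw [her, her, amap_smul', tf_smul_right]

theorem her_zero_right (x : AlbL E a b c) : her σ g x 0 = 0 := by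
  have := her_smul_right (σ := σ) (g := g) (0 : E) x 0
  rwa [zero_smul, map_zero, zero_mul] at this

theorem her_sum_right {ι : Type} (s : Finset ι) (x : AlbL E a b c) (f : ι → AlbL E a b c) :
    her σ g x (∑ i ∈ s, f i) = ∑ i ∈ s, her σ g x (f i) := by
  classical
  induction s using Finset.induction_on with
  | empty => simp [her_zero_right]
  | insert i s hi ih => rw [Finset.sum_insert hi, Finset.sum_insert hi, her_add_right, ih]

/-- The map `y ↦ her y x`. -/
def herL (σ : E ≃ₐ[k] E) (g : Fin 3 → Eˣ) (x : AlbL E a b c) : AlbL E a b c →ₗ[E] E where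
  toFun y := her σ g y x
  map_add' y z := her_add_left y z x
  map_smul' t y := her_smul_left t y x

theorem mkq_add {F : Type} [Field F] {a b : Fˣ} (al p q r s p' q' r' s' : F) :
    mkq a b al (p + p') (q + q') (r + r') (s + s') =
      mkq a b al p q r s + mkq a b al p' q' r' s' := by
  apply QuaternionAlgebra.ext
  · rw [QuaternionAlgebra.re_add]; simp only [mkq]; ring
  · rw [QuaternionAlgebra.imI_add]; simp only [mkq]; ring
  · rw [QuaternionAlgebra.imJ_add]; simp only [mkq]; ring
  · rw [QuaternionAlgebra.imK_add]; simp only [mkq]; ring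

theorem mkq_smul {F : Type} [Field F] {a b : Fˣ} (al t p q r s : F) :
    mkq a b al (t * p) (t * q) (t * r) (t * s) = t • mkq a b al p q r s := by
  apply QuaternionAlgebra.ext
  · rw [QuaternionAlgebra.re_smul]; simp only [mkq, smul_eq_mul]; ring
  · rw [QuaternionAlgebra.imI_smul]; simp only [mkq, smul_eq_mul]; ring
  · rw [QuaternionAlgebra.imJ_smul]; simp only [mkq, smul_eq_mul]; ring
  · rw [QuaternionAlgebra.imK_smul]; simp only [mkq, smul_eq_mul]; ring

/-- A map into the line. -/
def lineMap (al : E) : ((Fin 3 → E) × E) →ₗ[E] AlbL E a b c where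
  toFun v := ⟨0, 0, 0, ⟨0, mkq _ _ al 0 (v.1 0) 0 v.2⟩, ⟨0, mkq _ _ al 0 (v.1 1) 0 0⟩,
    ⟨0, mkq _ _ al 0 (v.1 2) 0 0⟩⟩
  map_add' v w := by
    apply Alb.ext
    · simp
    · simp
    · simp
    all_goals
      apply Oct.ext
      · simp
      · simp only [x1_add, x2_add, x3_add, snd_add, ← mkq_add, add_zero, Prod.fst_add,
          Prod.snd_add, Pi.add_apply]
  map_smul' t v := by
    apply Alb.ext
    · simp
    · simp
    · simp
    all_goals
      apply Oct.ext
      · simp
      · simp only [x1_smul, x2_smul, x3_smul, snd_smul, ← mkq_smul, mul_zero, Prod.smul_fst,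
          Prod.smul_snd, Pi.smul_apply, smul_eq_mul, RingHom.id_apply]

theorem ca_qmap (hσ : σ al = -al) (q : Qt (up E a) (up E b)) :
    ca al (qmap σ q) = σ (cb al q) := by
  simp only [ca, cb, re_qmap, imI_qmap, map_sub, map_mul, hσ]
  ring

section char0

variable [CharZero E]

theorem lineMap_inj (hal : al ^ 2 = algebraMap k E a) :
    Function.Injective (lineMap (a := a) (b := b) (c := c) al) := by
  have hal' : al ^ 2 = ((up E a : Eˣ) : E) := hal
  rw [← LinearMap.ker_eq_bot, LinearMap.ker_eq_bot']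
  rintro ⟨p, t⟩ h
  have h1 := congrArg (fun z => cb al z.x1.snd) h
  have h2 := congrArg (fun z => cb al z.x2.snd) h
  have h3 := congrArg (fun z => cb al z.x3.snd) h
  have h4 := congrArg (fun z => cd al z.x1.snd) h
  have e := fun p q r s => mkq_co (b := up E b) (two_ne_zero (α := E)) hal' p q r s
  simp only [lineMap, LinearMap.coe_mk, AddHom.coe_mk, (e _ _ _ _).2.1, (e _ _ _ _).2.2.2,
    x1_zero, x2_zero, x3_zero, snd_zero, cb_zero, cd_zero] at h1 h2 h3 h4
  ext i
  · fin_cases i
    · exact h1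
    · exact h2
    · exact h3
  · exact h4

theorem lineMap_mem (hal : al ^ 2 = algebraMap k E a) (v : (Fin 3 → E) × E) :
    lineMap (a := a) (b := b) (c := c) al v ∈ Iln c (E6O.em al) := by
  have hal' : al ^ 2 = ((up E a : Eˣ) : E) := hal
  have e := fun p q r s => mkq_co (b := up E b) (two_ne_zero (α := E)) hal' p q r s
  rw [mem_Iln_em hal]
  simp only [lineMap, LinearMap.coe_mk, AddHom.coe_mk, (e _ _ _ _).1, (e _ _ _ _).2.2.1, and_self]

theorem bil_em (hal : al ^ 2 = algebraMap k E a) (z : OctL E a b c) :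
    bil (⟨0, E6O.em al⟩ : OctL E a b c) z = -((up E c : Eˣ) : E) * ca al z.snd := by
  have hal' : al ^ 2 = ((up E a : Eˣ) : E) := hal
  obtain ⟨e1, e2, e3, e4⟩ := co_em (b := b) hal
  simp only [bil, Oct.norm, fst_add, snd_add, nrd_co hal', ca_add, cb_add, cg_add, cd_add, e1, e2,
    e3, e4, ca_zero, cb_zero, cg_zero, cd_zero]
  ring

theorem em_mul_gl (al : E) : (⟨E6O.em al, 0⟩ * oup E gl : OctL E a b c) = ⟨0, E6O.em al⟩ := by
  rw [oup_gl]
  apply Oct.ext <;> simp [gl]

theorem ep_mul_gl (al : E) : (⟨ep al, 0⟩ * oup E gl : OctL E a b c) = ⟨0, ep al⟩ := by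
  rw [oup_gl]
  apply Oct.ext <;> simp [gl]

/-- The elements orthogonal to the opposite standard point. -/
theorem cb_of_her (H : Hyp ρ σ lam g al s a b c) {x : AlbL E a b c}
    (h : ∀ y ∈ Pm al (gl : Oct a b c), her σ g y x = 0) :
    cb al x.x1.snd = 0 ∧ cb al x.x2.snd = 0 ∧ cb al x.x3.snd = 0 := by
  have hc : ((up E c : Eˣ) : E) ≠ 0 := (up E c).ne_zero
  have g0 := (g 0).ne_zero
  have g1 := (g 1).ne_zero
  have g2 := (g 2).ne_zero
  have key : ∀ r : Fin 3 → E, her σ g ⟨0, 0, 0, r 0 • ⟨0, E6O.em al⟩, r 1 • ⟨0, E6O.em al⟩,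
      r 2 • ⟨0, E6O.em al⟩⟩ x = 0 := fun r => h _ ⟨r, by rw [em_mul_gl]⟩
  have e : ∀ r : Fin 3 → E, -((up E c : Eˣ) : E) * ((g 1 : E) * g 2 * r 0 * σ (cb al x.x1.snd) +
      (g 2 : E) * g 0 * r 1 * σ (cb al x.x2.snd) +
      (g 0 : E) * g 1 * r 2 * σ (cb al x.x3.snd)) = 0 := by
    intro r
    have h1 := key r
    simp only [her, tf, wt, amap, bil_smul_left, bil_em H.al2, omap, ca_qmap H.σal, mul_zero,
      zero_mul, zero_add] at h1
    linear_combination h1
  refine ⟨?_, ?_, ?_⟩
  · have h1 := e ![1, 0, 0]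
    simpa [hc, g0, g1, g2] using h1
  · have h1 := e ![0, 1, 0]
    simpa [hc, g0, g1, g2] using h1
  · have h1 := e ![0, 0, 1]
    simpa [hc, g0, g1, g2] using h1

theorem adj_of_line (hal : al ^ 2 = algebraMap k E a) {y : AlbL E a b c}
    (hy : y ∈ Iln c (E6O.em al)) : adj y = 0 := by
  have hal' : al ^ 2 = ((up E a : Eˣ) : E) := hal
  obtain ⟨e1, e2, e3, e4⟩ := co_em (b := b) hal
  obtain ⟨q, rfl⟩ := hy
  have h0 : nrd (0 : Qt (up E a) (up E b)) = 0 := by simp [nrd]
  have h1 : nrd (E6O.em al : Qt (up E a) (up E b)) = 0 := by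
    rw [nrd_co hal', e1, e3]; ring
  have h2 : ∀ p q : Qt (up E a) (up E b), star (E6O.em al * p) * (E6O.em al * q) = 0 := by
    intro p q
    apply ext_co two_ne_zero hal' <;>
      simp only [ca_mul hal', cb_mul hal', cg_mul hal', cd_mul hal', e1, e2, e3, e4, ca_star,
        cb_star, cg_star, cd_star, ca_zero, cb_zero, cg_zero, cd_zero] <;> ring
  apply Alb.ext
  · simp only [adj, Oct.norm, nrd_mul, h0, h1, d1_zero]; ring
  · simp only [adj, Oct.norm, nrd_mul, h0, h1, d2_zero]; ring
  · simp only [adj, Oct.norm, nrd_mul, h0, h1, d3_zero]; ring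
  all_goals
    apply Oct.ext
    · simp only [adj, fst_sub, fst_star, fst_mul, fst_smul, h2, x1_zero, x2_zero, x3_zero,
        fst_zero, mul_zero, smul_zero, add_zero, sub_zero, star_zero]
    · simp only [adj, snd_sub, snd_star, snd_mul, snd_smul, x1_zero, x2_zero, x3_zero,
        snd_zero, mul_zero, star_zero, zero_smul, add_zero, sub_zero, neg_zero]

/-- The line is stable. -/
theorem ph_mem_line (H : Hyp ρ σ lam g al s a b c) {y : AlbL E a b c}
    (hy : y ∈ Iln c (E6O.em al)) : ph ρ lam y ∈ Iln c (E6O.em al) := by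
  have hq : ∀ q : Qt (up E a) (up E b), ca al (qmap ρ q) = ρ (ca al q) := fun q => by
    simp only [ca, re_qmap, imI_qmap, map_add, map_mul, H.ρal]
  have hq' : ∀ q : Qt (up E a) (up E b), cg al (qmap ρ q) = ρ (cg al q) := fun q => by
    simp only [cg, imJ_qmap, imK_qmap, map_add, map_mul, H.ρal]
  rw [mem_Iln_em H.al2] at hy ⊢
  obtain ⟨⟨h1, h2, h3⟩, ⟨h4, h5, h6⟩, ⟨h7, h8, h9⟩, h10, h11, h12⟩ := hy
  simp only [ph, omap, h1, h2, h3, h4, h5, h6, fst_smul, snd_smul, qmap_zero, smul_zero, map_zero,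
    mul_zero, ca_smul, cg_smul, hq, hq', h7, h8, h9, h10, h11, h12, and_self]

/-- **Row A**: a point of the opposite line which is orthogonal to a given point. -/
theorem exists_orth (H : Hyp ρ σ lam g al s a b c) {B : Submodule E (AlbL E a b c)}
    (hB : IsPt ρ lam B) : ∃ A : Submodule E (AlbL E a b c), IsPt ρ lam A ∧ A ≤ Iln c (E6O.em al) ∧
      ∀ y ∈ A, ∀ x ∈ B, her σ g y x = 0 := by
  have hBf : Module.Finite E B := Module.finite_of_finrank_pos (by rw [hB.dim]; omega)
  set e := Module.finBasisOfFinrankEq E B hB.dim with he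
  let L : AlbL E a b c →ₗ[E] (Fin 3 → E) := LinearMap.pi fun i => herL σ g (e i : AlbL E a b c)
  have hL : ∀ y i, L y i = her σ g y (e i : AlbL E a b c) := fun y i => rfl
  have h1 : LinearMap.ker (L ∘ₗ lineMap (a := a) (b := b) (c := c) al) ≠ ⊥ := by
    apply LinearMap.ker_ne_bot_of_finrank_lt
    rw [Module.finrank_prod, Module.finrank_fin_fun, Module.finrank_self]
    omega
  obtain ⟨v, hv, hv0⟩ := Submodule.exists_mem_ne_zero_of_ne_bot h1
  set y := lineMap (a := a) (b := b) (c := c) al v with hy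
  have hy0 : y ≠ 0 := by
    intro h
    apply hv0
    apply lineMap_inj H.al2
    rw [map_zero]
    exact h
  -- the space of the orthogonal elements of the line
  let U : Submodule E (AlbL E a b c) :=
    { carrier := {y | y ∈ Iln c (E6O.em al) ∧ ∀ x ∈ B, her σ g y x = 0}
      zero_mem' := ⟨zero_mem _, fun x _ => map_zero (herL σ g x)⟩
      add_mem' := by
        rintro y z ⟨h1, h2⟩ ⟨h3, h4⟩
        refine ⟨add_mem h1 h3, fun x hx => ?_⟩
        rw [her_add_left, h2 x hx, h4 x hx, add_zero]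
      smul_mem' := by
        rintro t y ⟨h1, h2⟩
        refine ⟨Submodule.smul_mem _ _ h1, fun x hx => ?_⟩
        rw [her_smul_left, h2 x hx, mul_zero] }
  have hyU : y ∈ U := by
    refine ⟨lineMap_mem H.al2 v, fun x hx => ?_⟩
    have h2 : x = ∑ i, (e.repr ⟨x, hx⟩ i) • (e i : AlbL E a b c) := by
      have h3 := congrArg (fun z : B => (z : AlbL E a b c)) (e.sum_repr ⟨x, hx⟩)
      simp only [Submodule.coe_sum, Submodule.coe_smul] at h3
      exact h3.symm
    have h4 : ∀ i, her σ g y (e i : AlbL E a b c) = 0 := fun i => by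
      rw [← hL]
      exact congrFun hv i
    rw [h2, her_sum_right]
    refine Finset.sum_eq_zero fun i _ => ?_
    rw [her_smul_right, h4, mul_zero]
  have hlam0 : (lam : E) ≠ 0 := lam.ne_zero
  have hρlam : ρ (lam : E) = lam := H.ρlam
  have hS := hsem H
  have hphU : ∀ z ∈ U, ph ρ lam z ∈ U := by
    rintro z ⟨h1, h2⟩
    refine ⟨ph_mem_line H h1, fun x hx => ?_⟩
    have h3 : ph ρ lam (ph ρ lam (ph ρ lam ((lam : E)⁻¹ • x))) = x := by
      rw [hS.cube, smul_smul, mul_inv_cancel₀ hlam0, one_smul]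
    rw [← h3, her_ph H, h2 _ (hB.ph _ (hB.ph _ (B.smul_mem _ hx))), map_zero, mul_zero]
  -- the point
  set A := Submodule.span E (Set.range ![y, ph ρ lam y, ph ρ lam (ph ρ lam y)]) with hA
  have hAU : A ≤ U := by
    rw [hA, Submodule.span_le]
    rintro _ ⟨i, rfl⟩
    fin_cases i
    · exact hyU
    · exact hphU _ hyU
    · exact hphU _ (hphU _ hyU)
  have hyA : y ∈ A := Submodule.subset_span ⟨0, rfl⟩
  have hphA : ∀ z ∈ A, ph ρ lam z ∈ A := by
    intro z hz
    induction hz using Submodule.span_induction with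
    | mem x hx =>
      obtain ⟨i, rfl⟩ := hx
      fin_cases i
      · exact Submodule.subset_span ⟨1, rfl⟩
      · exact Submodule.subset_span ⟨2, rfl⟩
      · change ph ρ lam (ph ρ lam (ph ρ lam y)) ∈ A
        rw [hS.cube]
        exact A.smul_mem _ hyA
    | zero =>
      have h2 : ph ρ lam (0 : AlbL E a b c) = 0 := by
        have := ph_smul (ρ := ρ) (lam := lam) (0 : E) (0 : AlbL E a b c)
        rwa [zero_smul, map_zero, zero_smul] at this
      rw [h2]
      exact zero_mem _
    | add x y _ _ h1 h2 =>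
      rw [ph_add]
      exact add_mem h1 h2
    | smul t x _ h1 =>
      rw [ph_smul]
      exact A.smul_mem _ h1
  have hAf : Module.Finite E A := Module.Finite.span_of_finite E (Set.finite_range _)
  have hle : Module.finrank E A ≤ 3 := by
    have := finrank_range_le_card (R := E) ![y, ph ρ lam y, ph ρ lam (ph ρ lam y)]
    rw [Fintype.card_fin] at this
    exact this
  have hdvd : 3 ∣ Module.finrank E A := by
    refine (hcyc H).dvd (fun x => ⟨ph ρ lam x, hphA x x.2⟩) ?_ ?_ ?_
    · intro x y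
      exact Subtype.ext (ph_add _ _)
    · intro t x
      exact Subtype.ext (ph_smul _ _)
    · intro x
      exact Subtype.ext (hS.cube _)
  have hne : Module.finrank E A ≠ 0 := by
    intro h
    have h2 := Submodule.finrank_eq_zero.1 h
    rw [h2] at hyA
    exact hy0 ((Submodule.mem_bot E).1 hyA)
  refine ⟨A, ⟨by omega, hphA, fun x hx => adj_of_line H.al2 (hAU hx).1⟩, fun x hx => (hAU hx).1,
    fun y hy x hx => (hAU hy).2 x hx⟩

end char0

end Vale.Agent.P011.E6X.H493
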