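import Vale.Agent.P011.E6X.TitsB
import Vale.Agent.P011.E6X.Orth
import Mathlib.Analysis.Complex.Basic

/-!
Block E6X: the type of a point at the real places, and nearness at these places.
-/

open NumberField Matrix

namespace Vale.Agent.P011.E6X

open Vale.Agent.P011.MPQ Vale.Agent.P011.D4 Vale.Agent.P011.D4.Oct Vale.Agent.P011.E6
open Vale.Agent.P011.E6O
open Vale.Agent.P011.E6O.Sl (XX YY ZZ)

variable {k E : Type} [Field k] [Field E] [Algebra k E]

/-- The embedding carries `σ` to the complex conjugation. -/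
def SC (σ : E ≃ₐ[k] E) (w : E →+* ℂ) : Prop := ∀ x, w (σ x) = (starRingEnd ℂ) (w x)

/-- The real value of an element of the base field. -/
def vk (w : E →+* ℂ) (t : k) : ℝ := (w (algebraMap k E t)).re

/-- The standard form. -/
def gst (g : Fin 3 → Eˣ) (w : E →+* ℂ) : Matrix (Fin 3) (Fin 3) ℂ :=
  Matrix.diagonal ![w (g 1 * g 2), w (g 2 * g 0), w (g 0 * g 1)]

/-- The Gram matrix of three elements. -/
def gram (σ : E ≃ₐ[k] E) (g : Fin 3 → Eˣ) (w : E →+* ℂ) {a b c : kˣ}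
    (x : Fin 3 → AlbL E a b c) : Matrix (Fin 3) (Fin 3) ℂ :=
  Matrix.of fun i j => w (her σ g (x i) (x j))

/-- At the embedding, the form on the space is the multiple by `f` of the standard form. -/
def TyAt (σ : E ≃ₐ[k] E) (g : Fin 3 → Eˣ) (w : E →+* ℂ) (f : k) {a b c : kˣ}
    (A : Submodule E (AlbL E a b c)) : Prop :=
  ∃ x : Fin 3 → AlbL E a b c, (∀ i, x i ∈ A) ∧ ∃ Q : Matrix (Fin 3) (Fin 3) ℂ, IsUnit Q ∧
    Q * gram σ g w x * Qᴴ = w (algebraMap k E f) • gst g w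

/-- The form on the space is the multiple by `f` of the standard form, up to positive scalars. -/
def Ty (σ : E ≃ₐ[k] E) (g : Fin 3 → Eˣ) (f : k) {a b c : kˣ}
    (A : Submodule E (AlbL E a b c)) : Prop :=
  ∀ w, SC σ w → TyAt σ g w f A

/-- The signs of `b` and `c` at the real places where `a` is negative. -/
def Sg (σ : E ≃ₐ[k] E) (b c : kˣ) : Prop :=
  ∀ w : E →+* ℂ, SC σ w →
    (vk w (b : k) < 0 ∧ vk w (c : k) < 0) ∨ (0 < vk w (b : k) ∧ 0 < vk w (c : k))

/-- The places where the group is compact. -/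
def Cp (g : Fin 3 → Eˣ) (b c : kˣ) (w : E →+* ℂ) : Prop :=
  vk w (b : k) < 0 ∧ vk w (c : k) < 0 ∧ 0 < (w (g 0 * g 1)).re ∧ 0 < (w (g 1 * g 2)).re

/-- The size of an element at the embedding. -/
noncomputable def nw (w : E →+* ℂ) (al : E) {a b c : kˣ} (y : AlbL E a b c) : ℝ :=
  ∑ i, ∑ j, (‖w (XX al y i j)‖ + ‖w (YY al y i j)‖ + ‖w (ZZ al y i j)‖)

/-- The element is near `1` at the real places where the group is not compact. -/
def NearS (σ : E ≃ₐ[k] E) (g : Fin 3 → Eˣ) (al : E) (ε : ℝ) {a b c : kˣ}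
    (h : AlbL E a b c ≃ₗ[E] AlbL E a b c) : Prop :=
  ∀ w : E →+* ℂ, SC σ w → ¬ Cp g b c w → ∀ x, nw w al (h x - x) ≤ ε * nw w al x

/-- The basis of the space `Apt x`. -/
def pb {a b c : kˣ} (x : OctL E a b c) (i : Fin 3) : AlbL E a b c :=
  ⟨0, 0, 0, (if i = 0 then (1 : E) else 0) • x, (if i = 1 then (1 : E) else 0) • x,
    (if i = 2 then (1 : E) else 0) • x⟩

/-- The space is near the space `Apt x` at the embedding. -/
def NearP (w : E →+* ℂ) (al : E) (δ : ℝ) {a b c : kˣ} (x : OctL E a b c)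
    (P : Submodule E (AlbL E a b c)) : Prop :=
  ∃ p : Fin 3 → AlbL E a b c, (∀ i, p i ∈ P) ∧ ∀ i, nw w al (p i - pb x i) ≤ δ

/-- The octonion `(e₋) l`. -/
def xm (al : E) {a b c : kˣ} : OctL E a b c :=
  ⟨0, mkq (up E a) (up E b) al 0 1 0 0⟩

/-- The octonion `(j e₋) l = (e₊ j) l`. -/
def xj (al : E) {a b c : kˣ} : OctL E a b c :=
  ⟨0, mkq (up E a) (up E b) al 0 0 1 0⟩

/-- Left multiplication by `j` on the second component. -/
def jq {a b : kˣ} (q : Qt (up E a) (up E b)) : Qt (up E a) (up E b) := ⟨0, 0, 1, 0⟩ * q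

/-- Left multiplication by `j` on the second components of the octonions. -/
def jl {a b c : kˣ} (y : AlbL E a b c) : AlbL E a b c :=
  ⟨0, 0, 0, ⟨0, jq y.x1.snd⟩, ⟨0, jq y.x2.snd⟩, ⟨0, jq y.x3.snd⟩⟩

/-- The space of the first standard line which is opposite to a space of the second one. -/
def opp (σ : E ≃ₐ[k] E) (g : Fin 3 → Eˣ) (al : E) {a b c : kˣ}
    (U : Submodule E (AlbL E a b c)) : Submodule E (AlbL E a b c) where
  carrier := {y | y ∈ Iln c (ep al) ∧ ∀ x ∈ U, her σ g (jl x) y = 0}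
  zero_mem' := ⟨Submodule.zero_mem _, fun x _ => H493.her_zero_right _⟩
  add_mem' := by
    rintro y z ⟨h1, h2⟩ ⟨h3, h4⟩
    exact ⟨Submodule.add_mem _ h1 h3, fun x hx => by
      rw [H493.her_add_right, h2 x hx, h4 x hx, add_zero]⟩
  smul_mem' := by
    rintro t y ⟨h1, h2⟩
    exact ⟨Submodule.smul_mem _ t h1, fun x hx => by
      rw [H493.her_smul_right, h2 x hx, mul_zero]⟩

end Vale.Agent.P011.E6X
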