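import Vale.Agent.P011.E6H.XDefs
import Vale.Agent.P011.E6X.End1
import Vale.Agent.P011.E6X.End2

/-!
Block E6X: assembly. Every subgroup of finite index is open at some real places.
-/

open NumberField

namespace Vale.Agent.P011.E6X

open Vale.Agent.P011.E6O Vale.Agent.P011.MPQ Vale.Agent.P011.D4 Vale.Agent.P011.D4.Oct
  Vale.Agent.P011.E6
open Vale.Agent.P011.E6H (nm)

variable {k E : Type} [Field k] [NumberField k] [Field E] [NumberField E] [Algebra k E]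
  {ρ σ : E ≃ₐ[k] E} {lam : Eˣ} {g : Fin 3 → Eˣ} {al s : E} {a b c : kˣ}

omit [NumberField k] [NumberField E] in
theorem res_le_GO : Res ρ σ lam g a b c ≤ GO ρ σ lam g a b c := by
  rintro _ ⟨x, -, rfl⟩
  exact x.2

/-- An element which is moved to the standard point belongs to the finite residual. -/
theorem mem_res_of_slide (H : Hyp ρ σ lam g al s a b c) {h : AlbL E a b c ≃ₗ[E] AlbL E a b c}
    (hh : h ∈ GO ρ σ lam g a b c)
    (hs : ∃ n ∈ Res ρ σ lam g a b c, ∃ w : Oct a b c, Perp w ∧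
      (Pw al (gl : Oct a b c)).map ((n * h : AlbL E a b c ≃ₗ[E] AlbL E a b c) :
        AlbL E a b c →ₗ[E] AlbL E a b c) = Pw al w) : h ∈ Res ρ σ lam g a b c := by
  obtain ⟨n, hn, w, hw, h1⟩ := hs
  have h2 : n * h ∈ GO ρ σ lam g a b c := mul_mem (res_le_GO hn) hh
  obtain ⟨n', hn', h3⟩ := end1 H h2 hw h1
  have h4 : n' * (n * h) ∈ GO ρ σ lam g a b c := mul_mem (res_le_GO hn') h2
  have h5 := end2 H h4 h3
  have h6 : h = n⁻¹ * (n'⁻¹ * (n' * (n * h))) := by group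
  rw [h6]
  exact mul_mem (InvMemClass.inv_mem hn) (mul_mem (InvMemClass.inv_mem hn') h5)

omit [NumberField k] [NumberField E] in
theorem mem_of_mem_res {N : Subgroup (GO ρ σ lam g a b c)} (hN : N.index ≠ 0)
    {x : GO ρ σ lam g a b c} (hx : x.1 ∈ Res ρ σ lam g a b c) : x ∈ N := by
  obtain ⟨y, hy, hyx⟩ := hx
  have h2 : y = x := Subtype.ext hyx
  rw [← h2]
  exact Subgroup.mem_sInf.mp hy N hN

/-- Every subgroup of finite index contains the elements close to the identity. -/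
theorem open_of_slide (H : Hyp ρ σ lam g al s a b c) {S : (E →+* ℂ) → Prop}
    (hs : ∃ ε : ℝ, 0 < ε ∧ ∀ h ∈ GO ρ σ lam g a b c,
      (∀ w, S w → ∀ x, nm w (h x - x) ≤ ε * nm w x) →
      ∃ n ∈ Res ρ σ lam g a b c, ∃ w : Oct a b c, Perp w ∧
        (Pw al (gl : Oct a b c)).map ((n * h : AlbL E a b c ≃ₗ[E] AlbL E a b c) :
          AlbL E a b c →ₗ[E] AlbL E a b c) = Pw al w)
    (N : Subgroup (GO ρ σ lam g a b c)) (hN : N.index ≠ 0) :
    ∃ ε : ℝ, 0 < ε ∧ ∀ x : GO ρ σ lam g a b c,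
      (∀ w, S w → ∀ y, nm w (x.1 y - y) ≤ ε * nm w y) → x ∈ N := by
  obtain ⟨ε, h0, h1⟩ := hs
  exact ⟨ε, h0, fun x hx => mem_of_mem_res hN (mem_res_of_slide H x.2 (h1 x.1 x.2 hx))⟩

end Vale.Agent.P011.E6X
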