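import Vale.Agent.P011.E6X.XDefs

/-!
Block E6X: literal statements of the rows.
-/

open NumberField Matrix

namespace Vale.Agent.P011.E6X.Spec

open Vale.Agent.P011.MPQ Vale.Agent.P011.D4 Vale.Agent.P011.D4.Oct Vale.Agent.P011.E6
open Vale.Agent.P011.E6O
open Vale.Agent.P011.E6O.Sl (XX YY ZZ)

variable {k E : Type} [Field k] [NumberField k] [Field E] [NumberField E] [Algebra k E]
  {ρ σ : E ≃ₐ[k] E} {lam : Eˣ} {g : Fin 3 → Eˣ} {al s : E} {a b c : kˣ}

/-! X3 (370, with the `IsDatX` of 675). -/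

section X3

variable (H : E6X.Hyp ρ σ lam g al s a b c)

include H

theorem T {f : k} (hf : f ≠ 0)
    (hs : ∀ w, SC σ w → vk w (b : k) < 0 → 0 < vk w (-(c * f)))
    {A : Submodule E (AlbL E a b c)} (hA : IsPt ρ lam A) (hI : A ≤ Iln c (ep al))
    (hT : Ty σ g f A) :
    ∃ n ∈ Res ρ σ lam g a b c, ∃ w : Oct a b c, Perp w ∧
      A.map (n : AlbL E a b c →ₗ[E] AlbL E a b c) = Pw al w := sorry

theorem Tm {f : k} (hf : f ≠ 0)
    (hs : ∀ w, SC σ w → vk w (b : k) < 0 → 0 < vk w (-(c * f)))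
    {U : Submodule E (AlbL E a b c)} (hU : IsPt ρ lam U) (hI : U ≤ Iln c (E6O.em al))
    (hT : Ty σ g f U) :
    ∃ n ∈ Res ρ σ lam g a b c, ∃ w : Oct a b c, Perp w ∧
      U.map (n : AlbL E a b c →ₗ[E] AlbL E a b c) = Pm al w ∧
      (opp σ g al U).map (n : AlbL E a b c →ₗ[E] AlbL E a b c) = Pw al w := sorry

end X3

/-! X4a (342). -/

/-- The form in the coordinates. -/
theorem her_co (h2 : (2 : E) ≠ 0) (hal : al ^ 2 = algebraMap k E a) (hσal : σ al = -al)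
    (x y : AlbL E a b c) :
    her σ g x y =
      (∑ i, ∑ j, (g i : E) * g j * (XX al x i j * σ (XX al y i j))) +
      (∑ j, (![(g 1 : E) * g 2, g 2 * g 0, g 0 * g 1] : Fin 3 → E) j *
        (-(up E c : E) * (YY al x 0 j * σ (YY al y 0 j)) -
          (up E b : E) * (YY al x 1 j * σ (YY al y 1 j)) +
          ((up E b : E) * (up E c : E))⁻¹ * (YY al x 2 j * σ (YY al y 2 j)))) +
      ∑ i, (![(g 1 : E) * g 2, g 2 * g 0, g 0 * g 1] : Fin 3 → E) i *
        (-(up E c : E)⁻¹ * (ZZ al x i 0 * σ (ZZ al y i 0)) -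
          (up E b : E)⁻¹ * (ZZ al x i 1 * σ (ZZ al y i 1)) +
          ((up E b : E) * (up E c : E)) * (ZZ al x i 2 * σ (ZZ al y i 2))) := sorry

/-- At a place where the group is compact, the form is positive definite. -/
theorem her_pos (h2 : (2 : E) ≠ 0) (hal : al ^ 2 = algebraMap k E a) (hσal : σ al = -al)
    {w : E →+* ℂ} (hw : SC σ w) (hσg : ∀ i, σ (g i) = g i) (hc : Cp g b c w)
    {x : AlbL E a b c} (hx : x ≠ 0) : 0 < (w (her σ g x x)).re := sorry

/-- The form is bounded. -/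
theorem her_bound (h2 : (2 : E) ≠ 0) (hal : al ^ 2 = algebraMap k E a) (hσal : σ al = -al)
    {w : E →+* ℂ} (hw : SC σ w) :
    ∃ C : ℝ, 0 < C ∧ ∀ x y : AlbL E a b c, ‖w (her σ g x y)‖ ≤ C * nw w al x * nw w al y := sorry

/-! X4b (637). -/

/-- A point which is near the first standard point of the opposite line is orthogonal to a point
of this line with a known form, and the opposite point is near the standard one. -/
theorem near_U (H : E6X.Hyp ρ σ lam g al s a b c) {w : E →+* ℂ} (hw : SC σ w) {δ : ℝ}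
    (hδ : 0 < δ) : ∃ ε : ℝ, 0 < ε ∧ ∀ P U : Submodule E (AlbL E a b c),
      IsPt ρ lam P → IsPt ρ lam U → U ≤ Iln c (E6O.em al) →
      (∀ y ∈ U, ∀ x ∈ P, her σ g y x = 0) → NearP w al ε (xm al) P →
        TyAt σ g w ((b : k) * c) U ∧ NearP w al δ (xj al) (opp σ g al U) := sorry

/-- The opposite space is a point. -/
theorem isPt_opp (H : E6X.Hyp ρ σ lam g al s a b c) {U : Submodule E (AlbL E a b c)}
    (hU : IsPt ρ lam U) (hI : U ≤ Iln c (E6O.em al)) : IsPt ρ lam (opp σ g al U) := sorry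

/-! X4c (342). -/

/-- The form on a point which is adjacent to two points near the standard ones. -/
theorem near_A (H : E6X.Hyp ρ σ lam g al s a b c) {w : E →+* ℂ} (hw : SC σ w) :
    ∃ ε : ℝ, 0 < ε ∧ ∀ P V A : Submodule E (AlbL E a b c), IsPt ρ lam A →
      NearP w al ε (xm al) P → NearP w al ε (xj al) V →
      (∀ x ∈ P, ∀ y ∈ A, Alb.adj (x + y) = 0) → (∀ x ∈ V, ∀ y ∈ A, Alb.adj (x + y) = 0) →
        TyAt σ g w (-(b : k)) A := sorry

/-! X4d (69). -/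

/-- If the Gram matrix is near a nonzero multiple of the standard form, then it is congruent to
it. -/
theorem tyAt_near {w : E →+* ℂ} (hw : SC σ w) (hσg : ∀ i, σ (g i) = g i) {f : k} (hf : f ≠ 0) :
    ∃ ε : ℝ, 0 < ε ∧ ∀ G : Matrix (Fin 3) (Fin 3) ℂ, Gᴴ = G →
      (∀ i j, ‖G i j - w (algebraMap k E f) * gst g w i j‖ < ε) →
        ∃ Q : Matrix (Fin 3) (Fin 3) ℂ, IsUnit Q ∧
          Q * G * Qᴴ = w (algebraMap k E f) • gst g w := sorry

theorem gram_herm (H : E6X.Hyp ρ σ lam g al s a b c) {w : E →+* ℂ} (hw : SC σ w)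
    (x : Fin 3 → AlbL E a b c) : (gram σ g w x)ᴴ = gram σ g w x := sorry

theorem tyAt_pos (H : E6X.Hyp ρ σ lam g al s a b c) {w : E →+* ℂ} (hw : SC σ w)
    (hpos : ∀ x : AlbL E a b c, x ≠ 0 → 0 < (w (her σ g x x)).re)
    (hg : 0 < (w (g 0 * g 1)).re ∧ 0 < (w (g 1 * g 2)).re) {f : k} (hf : 0 < vk w f)
    {A : Submodule E (AlbL E a b c)} (hA : Module.finrank E A = 3) : TyAt σ g w f A := sorry

theorem tyAt_map {w : E →+* ℂ} {f : k} {A : Submodule E (AlbL E a b c)}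
    (hA : TyAt σ g w f A) {φ : AlbL E a b c ≃ₗ[E] AlbL E a b c} (hφ : φ ∈ GO ρ σ lam g a b c) :
    TyAt σ g w f (A.map (φ : AlbL E a b c →ₗ[E] AlbL E a b c)) := sorry

theorem tyAt_trip {w : E →+* ℂ} {f : k} {b' c' : kˣ} {i j l : Oct a b c}
    (ht : Trip a b' c' i j l) {A : Submodule E (AlbL E a b c)} (hA : TyAt σ g w f A) :
    TyAt σ g w f (A.map ((tripA E ht).symm : AlbL E a b c →ₗ[E] AlbL E a b' c')) := sorry

/-- The multiple is determined up to the sign by the space. -/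
theorem tyAt_sign (H : E6X.Hyp ρ σ lam g al s a b c) {w : E →+* ℂ} (hw : SC σ w) {f f' : k}
    (hf : f ≠ 0) (hf' : f' ≠ 0) {A : Submodule E (AlbL E a b c)}
    (hA : Module.finrank E A = 3) (h1 : TyAt σ g w f A) (h2 : TyAt σ g w f' A) :
    0 < vk w (f * f') := sorry

/-- The standard points. -/
theorem tyAt_Pw (H : E6X.Hyp ρ σ lam g al s a b c) {w : E →+* ℂ} (hw : SC σ w) :
    TyAt σ g w (-(c : k)) (Pw al (gl : Oct a b c)) := sorry

theorem tyAt_Pm (H : E6X.Hyp ρ σ lam g al s a b c) {w : E →+* ℂ} (hw : SC σ w) :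
    TyAt σ g w (-(c : k)) (Pm al (gl : Oct a b c)) := sorry

/-! X4e (493). -/

theorem near_slide (H : E6X.Hyp ρ σ lam g al s a b c) (hS : Sg σ b c) :
    ∃ ε : ℝ, 0 < ε ∧ ∀ h ∈ GO ρ σ lam g a b c, NearS σ g al ε h →
      ∃ n ∈ Res ρ σ lam g a b c, ∃ w : Oct a b c, Perp w ∧
        (Pw al (gl : Oct a b c)).map ((n * h : AlbL E a b c ≃ₗ[E] AlbL E a b c) :
          AlbL E a b c →ₗ[E] AlbL E a b c) = Pw al w := sorry

theorem near_res (H : E6X.Hyp ρ σ lam g al s a b c) (hS : Sg σ b c) :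
    ∃ ε : ℝ, 0 < ε ∧ ∀ h ∈ GO ρ σ lam g a b c, NearS σ g al ε h →
      h ∈ Res ρ σ lam g a b c := sorry

theorem open_of_near (H : E6X.Hyp ρ σ lam g al s a b c) (hS : Sg σ b c)
    (N : Subgroup (GO ρ σ lam g a b c)) (hN : N.index ≠ 0) :
    ∃ ε : ℝ, 0 < ε ∧ ∀ h : GO ρ σ lam g a b c, NearS σ g al ε h.1 → h ∈ N := sorry

end Vale.Agent.P011.E6X.Spec
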